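import Vale.Agent.P092AL.Gr

/-!
P092, group side (helper72): the quantitative covering property and the roots. Definitions.
-/

set_option linter.all false

open scoped Matrix.Norms.Elementwise

namespace Vale.Agent.P092AG

variable {n : ℕ} {k : Type} [NontriviallyNormedField k]

/-- the translates of the big cell by the normaliser of the torus cover `G`, quantitatively -/
def Cov (G : Subgroup (GL (Fin n) k)) (y : Fin n → ℤ) : Prop :=
  ∃ (E : Finset (GL (Fin n) k)) (R : GL (Fin n) k → ℝ), (∀ e ∈ E, e ∈ Nm G) ∧ ∀ g ∈ G, ∃ e ∈ E,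
    ∀ w ∈ G, ‖fy y ((w * g : GL (Fin n) k) : Mt n k)‖ ≤ R w * ‖fy y ((e * g : GL (Fin n) k) : Mt n k)‖

/-- the roots -/
def Rt (G : Subgroup (GL (Fin n) k)) (𝔤 : Submodule k (Mt n k)) : Set (Y G →+ ℤ) :=
  {γ | γ ≠ 0 ∧ ∃ X ∈ 𝔤, X ≠ 0 ∧ X ∈ WS G (· = γ)}

end Vale.Agent.P092AG
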