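import Vale.Agent.P092AL.Rgd
import Vale.Agent.P092A2.Cpt
import Vale.Agent.P092GP.DefsT

/-!
P092, group side (helper72): the linear package of an isotropic simple group.
-/

set_option linter.all false

open Matrix Finset Filter Topology
open scoped Matrix.Norms.Elementwise

namespace Vale.Agent.P092AG

open Vale.Agent.P092AL (Fl Pp Un Lv)
open Vale.Agent.P092CQ Vale.Agent.P092GP

variable {n : ℕ} {k : Type} [NontriviallyNormedField k] {G : Subgroup (GL (Fin n) k)}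
  {𝔤 : Submodule k (Mt n k)} {u : GL (Fin n) k}

theorem weight_eq {ι : Type} [Fintype ι] {p : MvPolynomial ι k} {w : ι → ℤ} {d : ℤ} {t : kˣ}
    (ht : ‖(t : k)‖ < 1) (h : ∀ s : ι → k, MvPolynomial.eval (fun j => (t : k) ^ w j * s j) p =
      (t : k) ^ d * MvPolynomial.eval s p) {μ : ι →₀ ℕ} (h0 : p.coeff μ ≠ 0) :
    ∑ j, μ j * w j = d := by
  classical
  have k1 : ∀ d : ι → ℤ, ∏ a, (t : k) ^ d a = (t : k) ^ ∑ a, d a := fun d => by
    induction (univ : Finset ι) using Finset.induction_on with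
    | empty => simp
    | insert a s ha ih => rw [prod_insert ha, sum_insert ha, ih, zpow_add₀ t.ne_zero]
  have h1 : ∑ ν ∈ p.support, MvPolynomial.monomial ν ((t : k) ^ (∑ j, ν j * w j) * p.coeff ν) =
      MvPolynomial.C ((t : k) ^ d) * p := MvPolynomial.funext fun s => by
    rw [map_mul, MvPolynomial.eval_C, ← h, map_sum, MvPolynomial.eval_eq']
    refine sum_congr rfl fun ν _ => ?_
    rw [MvPolynomial.eval_monomial, Finsupp.prod_fintype _ _ fun _ => pow_zero _, ← k1, mul_comm _ (p.coeff ν),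
      mul_assoc, ← prod_mul_distrib]
    refine congrArg _ (prod_congr rfl fun j _ => ?_)
    rw [mul_pow, mul_comm (ν j : ℤ), _root_.zpow_mul, zpow_natCast]
  have h2 := congrArg (MvPolynomial.coeff μ) h1
  simp only [MvPolynomial.coeff_sum, MvPolynomial.coeff_monomial, sum_ite_eq', MvPolynomial.mem_support_iff,
    MvPolynomial.coeff_C_mul, if_pos h0] at h2
  exact zpow_inj ht (mul_right_cancel₀ h0 h2)

theorem ev_bind {m : ℕ} (b : Fin m → Mt n k) (s : Fin m → k) (p : Pl n k) : MvPolynomial.eval s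
    (MvPolynomial.bind₁ (fun a => ∑ j, MvPolynomial.X j * MvPolynomial.C (b j a.1 a.2)) p) =
      ev (∑ j, s j • b j) p := by
  induction p using MvPolynomial.induction_on with
  | C c => simp [ev_C]
  | add p q hp hq => rw [map_add, map_add, map_add, hp, hq]
  | mul_X p a hp =>
    rw [map_mul, map_mul, map_mul, hp, MvPolynomial.bind₁_X_right, show a = (a.1, a.2) from rfl, ev_X]
    simp [Matrix.sum_apply]

variable [ProperSpace k]

theorem Chart.U_le_P (h : Chart G 𝔤) {y z : Y G} (e : ∀ a ∈ Rt G 𝔤, 0 < a y → 0 ≤ a z)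
    (hu : u ∈ G ⊓ Ugl y.1) : u ∈ Pgl z.1 := fun i j hij => by
  obtain ⟨π, θ, σ, c⟩ := h.ec
  obtain ⟨Ψ, h1, h2⟩ := c.poly y.2
  obtain ⟨ϖ, -, h3⟩ := exists_unif k
  have h4 : Pp z.1 (π ((u : Mt n k) - 1)) := fun a b f => by
    have g : 0 < rt G a b y := by
      have := c.fl y.2 (isU_un.1 hu.2) a b f
      rw [rt_apply]
      omega
    have := e _ (h.mem_Rt (c.mem _) f fun d => by simp [d] at g) g
    rw [rt_apply] at this
    omega
  have h5 := ((PT.pow (z.1 j - z.1 i).toNat).mul ((h1 i j).pt (sc_pt z.1 (π ((u : Mt n k) - 1))))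
    ).eq_of_units (c := (u : Mt n k) i j) (fun t => by
      rw [← Ad_sc h4, ← c.pi_Ad z.2, Ad_coe, h2 _ (conj_U z.2 hu t), Units.val_mul, Units.val_mul, tor_conj,
        ← mul_assoc, ← zpow_natCast, ← zpow_add₀ t.ne_zero, Int.toNat_of_nonneg (by omega),
        sub_add_sub_cancel, sub_self, zpow_zero, one_mul]) 0
  rw [← h5, zero_pow (by omega), zero_mul]

theorem Nice.levi_le (hn : Nice G 𝔤) {y : Y G} (e : ∀ a ∈ Rt G 𝔤, a y ≠ 0) : G ⊓ Lgl y.1 ≤ Zc G :=
  fun g hg => mem_Zc.2 ⟨hg.1, fun z hz => by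
    have h := hn.levi y.2
    have k : ∀ w v : Y (G ⊓ Lgl y.1), G ⊓ Lgl y.1 ⊓ Ugl w.1 ≤ Lgl v.1 := fun w v u =>
      h.chart.U_le_L fun a ⟨a0, X, a1, a2, a3⟩ => by
        by_contra
        refine a2 (Matrix.ext fun i j => by_contra fun c => e _ (hn.chart.mem_Rt a1.1 c fun d => a0 ?_)
          (sub_eq_zero.2 (mem_LS.1 a1.2 i j c)))
        exact (a3 i j c).symm.trans (AddMonoidHom.ext fun x => DFunLike.congr_fun d ⟨x.1, Y_levi.le x.2⟩)
    exact h.le_of_cell (Y_levi.ge hz) (k (-⟨z, Y_levi.ge hz⟩) ⟨z, Y_levi.ge hz⟩) inf_le_right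
      (k ⟨z, Y_levi.ge hz⟩ ⟨z, Y_levi.ge hz⟩) hg⟩

/-- a graded basis of the positive part -/
theorem Chart.basis (h : Chart G 𝔤) (y : Y G) : ∃ (m : ℕ) (γ : Fin m → Y G →+ ℤ) (b : Fin m → Mt n k)
    (c : Fin m → Mt n k →ₗ[k] k), (∀ j, γ j ∈ Rt G 𝔤 ∧ 0 < γ j y ∧ b j ∈ 𝔤 ⊓ WS G (· = γ j)) ∧
      (∀ i j, c i (b j) = if j = i then 1 else 0) ∧ (∀ X ∈ 𝔤, Fl y.1 1 X → ∃ s : Fin m → k, ∑ j, s j • b j = X) ∧
      ∀ a ∈ Rt G 𝔤, 0 < a y → ∃ j, γ j = a := by
  classical
  obtain ⟨κ, a, -, h1, h2⟩ := exists_linearIndependent' k fun p : {p : (Y G →+ ℤ) × Mt n k //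
    p.1 ∈ Rt G 𝔤 ∧ 0 < p.1 y ∧ p.2 ∈ 𝔤 ⊓ WS G (· = p.1)} => p.1.2
  have := h2.finite
  obtain ⟨m, ⟨e⟩⟩ := Finite.exists_equiv_fin κ
  have h3 := h2.comp _ e.symm.injective
  choose c hc using fun i => LinearMap.exists_extend ((Finsupp.lapply i).comp h3.repr)
  have h4 : ∀ X ∈ 𝔤, Fl y.1 1 X → ∃ s : Fin m → k, ∑ j, s j • (a (e.symm j)).1.2 = X := fun X hX hf => by
    refine (Submodule.mem_span_range_iff_exists_fun k).1 ?_
    refine (congrArg (Submodule.span k) (e.symm.surjective.range_comp _)).trans h1 ▸ ?_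
    rw [show X = sch G 1 X from Matrix.ext fun i j => (one_mul _).symm, sch_eq_sum]
    refine sum_mem fun γ _ => Submodule.smul_mem _ _ ?_
    by_cases d : msk G (· = γ) X = 0
    · rw [d]; exact zero_mem _
    · obtain ⟨i, j, f⟩ : ∃ i j, msk G (· = γ) X i j ≠ 0 := by
        by_contra f
        exact d (Matrix.ext fun i j => by_contra fun g => f ⟨i, j, g⟩)
      have g : 0 < γ y := by
        have := hf i j (right_ne_zero_of_mul f)
        rw [← show rt G i j = γ from P092AG.msk_mem i j f, rt_apply]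
        omega
      exact Submodule.subset_span ⟨⟨(γ, _), ⟨fun o => g.ne' (DFunLike.congr_fun o y), _, h.msk_mem _ hX, d, P092AG.msk_mem⟩,
        g, h.msk_mem _ hX, P092AG.msk_mem⟩, rfl⟩
  refine ⟨m, fun j => (a (e.symm j)).1.1, fun j => (a (e.symm j)).1.2, c, fun j => (a _).2, fun i j => ?_, h4,
    fun α ⟨a0, X, a1, a2, a3⟩ a4 => by_contra fun f => a2 ?_⟩
  · have := LinearMap.congr_fun (hc i) ⟨_, Submodule.subset_span ⟨j, rfl⟩⟩
    rwa [LinearMap.comp_apply, LinearMap.comp_apply, h3.repr_eq_single j _ rfl, Finsupp.lapply_apply,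
      Finsupp.single_apply] at this
  · obtain ⟨s, hs⟩ := h4 X a1 fun i j g => by
      rw [← show rt G i j = α from a3 i j g, rt_apply] at a4
      omega
    refine Matrix.ext fun i j => by_contra fun g => g ?_
    rw [← hs, Matrix.sum_apply]
    exact sum_eq_zero fun l _ => by_contra fun o => f ⟨l, ((a _).2.2.2.2 i j (right_ne_zero_of_mul o)).symm.trans
      (a3 i j g)⟩

/-- **the linear package** -/
theorem lp_of' (K : Type) [NormedField K] [NormedAlgebra k K] [IsAlgClosed K] (hk : P092.UN.LocK k)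
    (hn : Nice G 𝔤) (hs : Simp G) (hm : Max K G) (hY : Y G ≠ ⊥) : ∃ L : LD k G, L.LP ∧
      ∃ om : Fin L.R.r → Y G, (LinearIndependent ℤ fun j => (om j).1) ∧
        ∀ c : Y G →+ ℤ, (∀ j, c (om j) = 0) → c = 0 := by
  classical
  have H := red_of K hn hs hm
  obtain ⟨R, N, om, hN, hR, sep, r1, r2, hw, -⟩ := P092RT.root hY (Rt_fin (𝔤 := 𝔤)) (fun c => c.1 rfl)
    (fun _ => H.refl) (hs.irr hn)
  let y : Y G := ∑ j, om j
  have y1 : ∀ γ : Y G →+ ℤ, γ y = ∑ j, γ (om j) := fun γ => map_sum γ _ _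
  have y2 : ∀ a ∈ Rt G 𝔤, (0 < a y ∧ ∀ j, 0 ≤ a (om j)) ∨ (a y < 0 ∧ ∀ j, a (om j) ≤ 0) := fun a ha => by
    obtain ⟨d, d1, m, -, d2⟩ := r1 a ha
    have d3 : ∀ j, a (om j) = (N * m : ℕ) * d j := fun j => (congrFun d2 j).trans (nsmul_eq_mul _ _)
    have d4 : ∃ j ∈ univ, a (om j) ≠ 0 := by_contra fun c => ha.1 (sep a fun j => by_contra fun e =>
      c ⟨j, mem_univ j, e⟩)
    rw [y1]
    refine (hR.sign d d1).2.imp (fun c => ?_) fun c => ?_
    · have : ∀ j, 0 ≤ a (om j) := fun j => d3 j ▸ mul_nonneg (Int.natCast_nonneg _) (c j)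
      exact ⟨sum_pos' (fun j _ => this j) (d4.imp fun j e => ⟨e.1, (this j).lt_of_ne' e.2⟩), this⟩
    · have : ∀ j, a (om j) ≤ 0 := fun j => d3 j ▸ mul_nonpos_of_nonneg_of_nonpos (Int.natCast_nonneg _) (c j)
      exact ⟨sum_neg' (fun j _ => this j) (d4.imp fun j e => ⟨e.1, (this j).lt_of_ne e.2⟩), this⟩
  obtain ⟨π, θ, σ, E⟩ := hn.chart.ec
  obtain ⟨Ψ, p1, p2⟩ := E.poly y.2
  choose P hP using p1
  obtain ⟨m, γ, b, c, b1, b2, b3, b4⟩ := hn.chart.basis y
  have b5 : ∀ s : Fin m → k, ∑ j, s j • b j ∈ 𝔤 ⊓ FS k y.1 1 := fun s => sum_mem fun j _ =>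
    Submodule.smul_mem _ _ ⟨(b1 j).2.2.1, FS_eq (R := k) y 1 ▸ WS_mono (fun _ e => e ▸ (b1 j).2.1) (b1 j).2.2.2⟩
  choose x x1 x2 using fun s => E.surj y.2 (b5 s).1 (b5 s).2
  let L : LD k G :=
    { R := R, n := n, N := N, m := m, ρ := (Units.coeHom _).comp G.subtype, wt := fun a j => (om j).1 a
      τ := fun h t => ⟨tor (∑ j, h j • om j : Y G).1 t, (∑ j, h j • om j : Y G).2 t⟩
      dg := fun j l => γ j (om l)
      e := of fun p q => MvPolynomial.bind₁ (fun a => ∑ j, MvPolynomial.X j * MvPolynomial.C (b j a.1 a.2)) (P p q)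
      x := fun s => ⟨x s, (x1 s).1⟩
      l := fun j => of fun p q => c j (π (msk G (· = γ j) (single p q 1))) }
  have e1 : ∀ s p q, MvPolynomial.eval s (L.e p q) = (x s : Mt n k) p q := fun s p q => by
    rw [← p2 _ (x1 s), x2]
    exact (ev_bind b s (P p q)).trans (hP p q _).symm
  have z0 : ∀ g : G, g ∈ L.Z0 ↔ g.1 ∈ Zc G := fun g => by
    refine ⟨fun h => mem_Zc.2 ⟨g.2, fun z hz p q e => h p q fun d => e (sub_eq_zero.1 (DFunLike.congr_fun
      (sep (rt G p q) fun j => congrFun (AddSubmonoid.mem_bot.1 d) j) ⟨z, hz⟩))⟩, fun h p q e => ?_⟩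
    exact by_contra fun d => e (AddSubmonoid.mem_bot.2 (funext fun j => sub_eq_zero.2
      (isL_lv.1 ((mem_Zc.1 h).2 _ (om j).2) p q d)))
  have u1 : ∀ g : G, g ∈ L.Up → g.1 ∈ Ugl y.1 := fun g h => isU_un.2 fun p q e => by
    have d : 0 < L.wt p - L.wt q := by_contra fun d => e (h p q d)
    have := sum_pos' (fun j _ => d.le j) ((Pi.lt_def.1 d).2.imp fun j o => ⟨mem_univ j, o⟩)
    have f : y.1 p - y.1 q = ∑ j, (L.wt p - L.wt q) j := y1 (rt G p q)
    omega
  have u2 : ∀ (ε : ℤ) (g : G), ε * ε = 1 → g.1 ∈ Ugl (ε • y).1 → ∀ p q, ((g.1 : Mt n k) - 1) p q ≠ 0 →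
      0 < ε • (L.wt p - L.wt q) := fun ε g hε h p q e => by
    have d := isU_un.1 h p q e
    have f : ∀ j, 0 ≤ (ε • (L.wt p - L.wt q)) j := fun j => by
      have := (isP_pp.1 (hn.chart.U_le_P (z := ε • om j) (fun a ha o => by
        rw [map_zsmul, smul_eq_mul] at o ⊢
        rcases y2 a ha with v | v <;> nlinarith [v.1, v.2 j]) ⟨g.2, h⟩)).sub Pp.one p q e
      simpa [L, mul_sub] using this
    refine lt_of_le_of_ne f fun o => ?_
    have f : y.1 p - y.1 q = ∑ j, (L.wt p - L.wt q) j := y1 (rt G p q)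
    have o' := congrArg (fun v => ∑ j, v j) o
    simp only [Pi.zero_apply, sum_const_zero, Pi.smul_apply, smul_eq_mul, ← mul_sum, ← f] at o'
    simp only [AddSubgroup.coe_zsmul, Pi.smul_apply, smul_eq_mul] at d
    linarith
  refine ⟨L, ⟨⟨hR, hN, Units.val_injective.comp Subtype.val_injective, fun g => hn.det1 _ g.2, fun h t => ?_,
    fun j => ?_, fun i => ?_, fun p q μ hμ => funext fun l => ?_, fun s => Matrix.ext fun p q => (e1 s p q).symm,
    Subtype.ext (E.inj y.2 (x1 0) (one_mem _) ((x2 0).trans (by simp))), fun g h => ?_, fun j p q e => ?_, fun s j => ?_,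
    fun i g hg h1 => ?_, eq_top_iff.2 fun g _ => ?_⟩, inferInstance, hk, emb_val.comp .subtypeVal, ?_⟩,
    om, Fintype.linearIndependent_iff.2 fun c h i => ?_, sep⟩
  · show diagonal _ = _
    simp [L, dotProduct, mul_comm]
  · obtain ⟨d, d1, l, d2, d3⟩ := r1 _ (b1 j).1
    refine ⟨d, d1, fun i => ?_, l, d2, d3⟩
    have := ((y2 _ (b1 j).1).resolve_right fun o => o.1.not_gt (b1 j).2.1).2 i
    rw [congrFun d3 i, Pi.smul_apply, nsmul_eq_mul] at this
    exact nonneg_of_mul_nonneg_right this (by positivity)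
  · obtain ⟨a, a1, a2⟩ := r2 _ (hR.simple i)
    obtain ⟨j, rfl⟩ := b4 a a1 (((y2 a a1).resolve_right fun o => by
      have := (congrFun a2 i).symm.trans_le (o.2 i)
      simp [P183CH.RS.α] at this
      omega).1)
    exact ⟨j, a2⟩
  · obtain ⟨t, ht⟩ := exists_small k
    rw [Finsupp.weight_apply, Finsupp.sum_fintype _ (fun i c => c • L.dg i) fun _ => zero_smul _ _,
      Finset.sum_apply]
    refine Eq.trans (sum_congr rfl fun j _ => nsmul_eq_mul _ _)
      (weight_eq (w := fun j => γ j (om l)) ht (fun s => ?_) hμ)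
    rw [e1, e1, E.inj y.2 (x1 _) (conj_U (om l).2 (x1 s) t), Units.val_mul, Units.val_mul, tor_conj]
    · rfl
    rw [← Ad_coe, E.pi_Ad (om l).2, x2, x2, map_sum]
    refine sum_congr rfl fun j _ => Matrix.ext fun p q => ?_
    rw [map_smul, Ad_tor, Matrix.smul_apply, Matrix.smul_apply, sch_apply]
    by_cases o : b j p q = 0
    · simp [o]
    · rw [show rt G p q = γ j from (b1 j).2.2.2 p q o, smul_eq_mul, smul_eq_mul]; ring
  · obtain ⟨s, e⟩ := b3 _ (E.mem (((g.1 : GL (Fin n) k) : Mt n k) - 1)) (E.fl y.2 (isU_un.1 (u1 g h)))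
    exact ⟨s, Subtype.ext (E.inj y.2 ⟨g.2, u1 g h⟩ (x1 s) (e.symm.trans (x2 s).symm))⟩
  · show c j (π _) = 0
    rw [show msk G (· = γ j) (single p q (1 : k)) = 0 from Matrix.ext fun a a' => by
      rw [msk_apply]
      split_ifs with o
      · refine single_apply_of_ne _ _ _ _ _ fun v => e (funext fun l => ?_)
        rw [v.1, v.2]
        exact DFunLike.congr_fun o _
      · rfl, map_zero, map_zero]
  · have k1 : ∀ M : Mt n k, L.co j M = c j (π (msk G (· = γ j) M)) := fun M => by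
      conv_rhs => rw [matrix_eq_sum_single M]
      simp only [map_sum]
      refine sum_congr rfl fun p _ => sum_congr rfl fun q _ => ?_
      rw [show single p q (M p q) = M p q • single p q 1 by simp, map_smul, map_smul, map_smul, smul_eq_mul,
        mul_comm]
      rfl
    have k2 : msk G (· = γ j) (x s : Mt n k) = msk G (· = γ j) ((x s : Mt n k) - 1) := by
      rw [map_sub, msk, sch_one, if_neg (b1 j).1.1.symm, zero_smul, sub_zero]
    refine (k1 _).trans ((congrArg (fun M => c j (π M)) k2).trans ?_)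
    rw [msk, E.gr, x2, ← msk, map_sum, map_sum, sum_eq_single j (fun l _ o => ?_) (by simp), map_smul, map_smul,
      msk_self (b1 j).2.2.2, b2, if_pos rfl, smul_eq_mul, mul_one]
    by_cases v : γ l = γ j
    · rw [map_smul, map_smul, msk_self (v ▸ (b1 l).2.2.2), b2, if_neg o, smul_zero]
    · rw [map_smul, show msk G (· = γ j) (b l) = 0 from Matrix.ext fun a a' => by
        rw [msk_apply]
        split_ifs with o
        · exact by_contra fun d => v (((b1 l).2.2.2 a a' d).symm.trans o)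
        · rfl, smul_zero, map_zero]
  · obtain ⟨α, a1, a2⟩ := r2 _ (hR.simple i)
    have a3 : ∀ j, α (om j) = if j = i then (N : ℤ) else 0 := fun j => by
      rw [congrFun a2 j]; simp [P183CH.RS.α, Pi.single_apply]
    obtain ⟨s, hs⟩ := exists_Gen α
    obtain ⟨z, z1, z2⟩ : ∃ z : Y G, Reg G z ∧ 0 < α z := by
      obtain ⟨z, hz⟩ := exists_reg G
      rcases (Rt_reg a1 ⟨z, hz.1⟩ hz).lt_or_gt with c | c
      · exact ⟨-⟨z, hz.1⟩, hz.neg, by rwa [map_neg, neg_pos]⟩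
      · exact ⟨_, hz, c⟩
    have a4 : ∀ p q, ((g.1 : Mt n k) - 1) p q ≠ 0 → ∃ l : ℕ, 0 < l ∧ ∀ w, N * rt G p q w = l * α w :=
      fun p q e => by
      obtain ⟨l, l1, l2⟩ : L.wt p - L.wt q ∈ dRay (R.α i) := by_contra fun d => e (hg p q d)
      refine ⟨l, l1, fun w => sub_eq_zero.1 ?_⟩
      simpa using DFunLike.congr_fun (sep (N • rt G p q - l • α) fun j => by
        have : rt G p q (om j) = _ := congrFun l2 j
        simp [this, a3, P183CH.RS.α, Pi.single_apply, mul_comm]) w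
    obtain ⟨v, v1, v', v2, σ, v3, -⟩ := H.rgd' hs z1 (Rt_reg a1) (u := g.1) ⟨⟨g.2, isL_lv.2 (by
      have : Lv s.1 ((g.1 : Mt n k) - 1) := fun p q e => by
        obtain ⟨l, -, d⟩ := a4 p q e
        have := d s
        rw [hs.1, mul_zero, mul_eq_zero, rt_apply] at this
        omega
      simpa using mem_LS.1 (add_mem (mem_LS.2 this) (mem_LS.2 Lv.one)))⟩, isU_un.2 fun p q e => by
        obtain ⟨l, d1, d⟩ := a4 p q e
        have := d z
        rw [rt_apply] at this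
        have : 0 < (N : ℤ) * (z.1 p - z.1 q) := by rw [this]; positivity
        have := pos_of_mul_pos_left this.gt |> fun f => (mul_pos_iff_of_pos_left (by exact_mod_cast hN)).1 this
        omega⟩ fun d => h1 (Subtype.ext d)
    have a5 : ∀ v (h : v ∈ G ⊓ Lgl s.1 ⊓ Ugl (-z.1)), (⟨v, h.1.1⟩ : G) ∈ L.X (-R.α i) := fun v h p q e =>
      by_contra fun d => e (by
        have d1 := isU_un.1 h.2 p q d
        simp only [Pi.neg_apply] at d1
        have d2 := mem_LS.1 (sub_mem (mem_LS.2 (isL_lv.1 h.1.2)) (mem_LS.2 Lv.one)) p q d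
        have d3 := (hs.sg z2 (z := om i) (by rw [a3, if_pos rfl]; exact_mod_cast hN) p q d2).1 (by omega)
        refine ⟨((om i).1 q - (om i).1 p).toNat, by omega, funext fun j => ?_⟩
        show (om j).1 p - (om j).1 q = _
        by_cases o : j = i
        · subst o
          simp [P183CH.RS.α]
          omega
        · simp [P183CH.RS.α, o, hs.2 p q d2 (om j) (by rw [a3, if_neg o])])
    refine ⟨_, a5 v v1, _, a5 v' v2, fun p q e => by_contra fun d => e ?_⟩
    refine Eq.trans (funext fun j => (tw_perm v3.nm v3.ne (om j).2).2.wt d) (hw i σ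
      (fun w h => (tw_perm v3.nm v3.ne h).1) (fun w h => v3.fix w (h α a1 a2)) (fun a _ h => ?_) q)
    rw [show a = α from sub_eq_zero.1 (sep _ fun j => sub_eq_zero.2 (congrFun (h.trans a2.symm) j))]
    exact v3.neg
  · obtain ⟨g', h, e⟩ := hn.le_of_cell y.2 (D := (L.Z0 ⊔ L.Gp).map G.subtype)
      (fun v hv => ⟨⟨v, hv.1⟩, (le_sup_right.trans le_sup_right : L.Um ≤ L.Z0 ⊔ L.Gp) fun p q e =>
        by_contra fun d => e (sub_neg.2 (by simpa using u2 (-1) ⟨v, hv.1⟩ rfl (by simpa using hv.2) p q d)), rfl⟩)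
      (fun v hv => ⟨⟨v, hv.1⟩, (le_sup_left : L.Z0 ≤ _) ((z0 _).2 (hn.levi_le (fun a ha =>
        (y2 a ha).elim (·.1.ne') (·.1.ne)) hv)), rfl⟩)
      (fun v hv => ⟨⟨v, hv.1⟩, (le_sup_left.trans le_sup_right : L.Up ≤ L.Z0 ⊔ L.Gp) fun p q e =>
        by_contra fun d => e (sub_pos.2 (by simpa using u2 1 ⟨v, hv.1⟩ rfl (by simpa using hv.2) p q d)), rfl⟩) g.2
    exact (Subtype.ext e : g' = g) ▸ h
  · obtain ⟨z, hz⟩ := exists_reg G
    obtain ⟨α, a1, -⟩ := r2 _ (hR.simple ⟨0, hR.pos⟩)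
    obtain ⟨C, c1, c2, c3⟩ := P092A2.cpt' hn hs hm hz.1 (fun o => Rt_reg a1 ⟨z, hz.1⟩ hz
      (by rw [show (⟨z, hz.1⟩ : Y G) = 0 from Subtype.ext o, map_zero])) (H.cov z hz) sep
    refine ⟨Subtype.val ⁻¹' C, Subtype.isCompact_iff.2 (by
      rwa [Set.image_preimage_eq_of_subset fun v hv => ⟨⟨v, (mem_Zc.1 (c2 hv)).1⟩, rfl⟩]),
      fun v hv => (z0 v).2 (c2 hv), fun g hg => ?_⟩
    obtain ⟨s, s1, v, v1, e⟩ := c3 _ ((z0 g).1 hg)
    obtain ⟨s, s2, rfl⟩ := (Subgroup.closure_le (K := L.S.map G.subtype)).2 (by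
      rintro _ ⟨j, t, rfl⟩
      exact ⟨_, Subgroup.subset_closure ⟨Pi.single j 1, t, rfl⟩, by simp [L, Pi.single_apply]⟩) s1
    exact ⟨s, s2, ⟨v, (mem_Zc.1 (c2 v1)).1⟩, v1, Subtype.ext e⟩
  · obtain ⟨α, -, a2⟩ := r2 _ (hR.simple i)
    have := congrArg α (show ∑ j, c j • om j = 0 from Subtype.ext (by simpa using h))
    simp only [map_sum, map_zsmul, congrFun a2, P183CH.RS.α, Pi.smul_apply, Pi.single_apply, map_zero] at this
    simpa [hN.ne'] using this

theorem lp_of (K : Type) [NormedField K] [NormedAlgebra k K] [IsAlgClosed K] (hk : P092.UN.LocK k)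
    (hn : Nice G 𝔤) (hs : Simp G) (hm : Max K G) (hY : Y G ≠ ⊥) : ∃ L : LD k G, L.LP :=
  (lp_of' K hk hn hs hm hY).imp fun _ h => h.1

end Vale.Agent.P092AG
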