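import Vale.Agent.P092AL.Gr

/-!
P092, group side (helper72): the big cell of `G`; Levi subgroups and unipotent radicals are nice.
-/

set_option linter.all false

open Matrix Finset Filter Topology
open scoped Matrix.Norms.Elementwise

namespace Vale.Agent.P092AG

open Vale.Agent.P092AL (Fl Pp Un Lv)
open Vale.Agent.P092CQ

section alg

variable {n : ℕ} {R : Type} [Field R] {y : Fin n → ℤ} {F F' : Mt n R → R} {S T : Mt n R → Mt n R}

/-- regular functions on the big cell -/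
def RF (y : Fin n → ℤ) (F : Mt n R → R) : Prop :=
  ∃ (N : ℕ) (q : Pl n R), ∀ x, fy y x ≠ 0 → F x * fy y x ^ N = ev x q

theorem PF.rf (h : PF F) : RF y F := h.elim fun p hp => ⟨0, p, fun x _ => by simp [hp]⟩

theorem RF.mul (h : RF y F) (h' : RF y F') : RF y fun x => F x * F' x := by
  obtain ⟨N, p, hp⟩ := h
  obtain ⟨M, q, hq⟩ := h'
  exact ⟨N + M, p * q, fun x hx => by rw [map_mul, ← hp x hx, ← hq x hx]; ring⟩

theorem RF.add (h : RF y F) (h' : RF y F') : RF y fun x => F x + F' x := by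
  obtain ⟨N, p, hp⟩ := h
  obtain ⟨M, q, hq⟩ := h'
  obtain ⟨f, hf⟩ := pf_fy (R := R) y
  exact ⟨N + M, p * f ^ M + q * f ^ N, fun x hx => by
    simp only [map_add, map_mul, map_pow, ← hp x hx, ← hq x hx, ← hf]; ring⟩

theorem RF.congr (h : RF y F) (e : ∀ x, fy y x ≠ 0 → F' x = F x) : RF y F' :=
  h.imp fun _ h => h.imp fun _ h x hx => by rw [e x hx, h x hx]

theorem RF.comp {m : ℕ} {F : Mt m R → R} (hF : PF F) {T : Mt n R → Mt m R}
    (h : ∀ i j, RF y fun x => T x i j) : RF y fun x => F (T x) := by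
  obtain ⟨p, hp⟩ := hF
  simp only [hp]
  clear hp
  induction p using MvPolynomial.induction_on with
  | C c => simpa only [ev_C] using (PF.const c).rf
  | add p q hp hq => simpa only [map_add] using hp.add hq
  | mul_X p ij hp =>
    obtain ⟨i, j⟩ := ij
    simpa only [map_mul, ev_X] using hp.mul (h i j)

theorem RF.mulE (hS : ∀ i j, RF y fun x => S x i j) (hT : ∀ i j, RF y fun x => T x i j) (i j : Fin n) :
    RF y fun x => (S x * T x) i j := by
  simp only [mul_apply]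
  induction (univ : Finset (Fin n)) using Finset.induction_on with
  | empty => simpa using (PF.const 0).rf
  | insert a s ha ih => simpa only [sum_insert ha] using ((hS i a).mul (hT a j)).add ih

theorem rf_mn_inv (l : Fin n) : RF y fun x : Mt n R => (mn y (y l) x)⁻¹ := by
  obtain ⟨q, hq⟩ := (pf_mn (R := R) y (y l - 1)).mul
    (PF.prod (univ.erase l) fun a _ => (pf_mn y (y a)).mul (pf_mn y (y a - 1)))
  refine ⟨1, q, fun x hx => ?_⟩
  rw [← hq, pow_one, fy, P092AL.ff, ← mul_prod_erase _ _ (mem_univ l), mul_assoc,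
    inv_mul_cancel_left₀ (mn_ne_of_fy hx _)]

theorem rf_li (i j : Fin n) : RF y fun x : Mt n R => P092AL.li y x i j := by
  have c : ∀ (M : Mt n R) i j, RF y fun _ : Mt n R => M i j := fun M i j => (PF.const _).rf
  have h1 : ∀ a b, RF y fun x : Mt n R => P092AL.tr y (y i) x a b := fun a b =>
    (RF.mulE (RF.mulE (c _) fun a b => (PF.entry a b).rf) (c _) a b).add (c _ a b)
  have h2 : ∀ a b, RF y fun x : Mt n R => (P092AL.tr y (y i) x)⁻¹ a b := fun a b =>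
    ((rf_mn_inv i).mul (RF.comp (PF.adj a b) h1)).congr fun x _ => by
      rw [Matrix.inv_def, Ring.inverse_eq_inv', Matrix.smul_apply, smul_eq_mul]; rfl
  exact ((c 1 i j).add ((PF.const (-1)).rf.mul (RF.mulE (RF.mulE (RF.mulE
    (fun a b => (PF.entry a b).rf) (c _)) h2) (c _) i j))).congr fun x _ => by
      rw [neg_one_mul, ← sub_eq_add_neg]; rfl

theorem RF.transpose (h : RF y F) : RF y fun x => F xᵀ := by
  obtain ⟨N, p, hp⟩ := h
  obtain ⟨q, hq⟩ := (PF.of p).comp (T := fun x : Mt n R => xᵀ) fun i j => PF.entry j i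
  exact ⟨N, q, fun x hx => by
    have := hp xᵀ (by rwa [fy, P092AL.ff_transpose])
    rw [fy, P092AL.ff_transpose] at this
    exact this.trans (hq x)⟩

theorem rf_ui (i j : Fin n) : RF y fun x : Mt n R => P092AL.ui y x i j := (rf_li j i).transpose

theorem rf_lo (i j : Fin n) : RF y fun x : Mt n R => P092AL.lo y x i j :=
  (RF.comp (PF.adj i j) rf_li).congr fun x _ => by
    rw [P092AL.lo, Matrix.inv_def, P092AL.un_li.det, Ring.inverse_one, one_smul]

theorem rf_up (i j : Fin n) : RF y fun x : Mt n R => P092AL.up y x i j :=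
  (RF.comp (PF.adj i j) rf_ui).congr fun x _ => by
    rw [P092AL.up, Matrix.inv_def, P092AL.un_ui.det, Ring.inverse_one, one_smul]

theorem rf_md (i j : Fin n) : RF y fun x : Mt n R => P092AL.md y x i j :=
  RF.mulE (RF.mulE rf_li fun a b => (PF.entry a b).rf) rf_ui i j

theorem mem_inf {G H : Subgroup (GL (Fin n) R)} {x : Mt n R} : Mem (G ⊓ H) x ↔ Mem G x ∧ Mem H x :=
  ⟨fun ⟨g, h, e⟩ => ⟨⟨g, h.1, e⟩, g, h.2, e⟩,
    fun ⟨⟨g, h, e⟩, g', h', e'⟩ => ⟨g, ⟨h, Units.ext (e'.trans e.symm) ▸ h'⟩, e⟩⟩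

theorem ZCl.inf {G H : Subgroup (GL (Fin n) R)} (h : ZCl (G : Set (GL (Fin n) R)))
    (P : Fin n → Fin n → Prop) (c : Mt n R)
    (e : ∀ g, g ∈ H ↔ ∀ i j, P i j → (g : Mt n R) i j = c i j) :
    ZCl ((G ⊓ H : Subgroup _) : Set (GL (Fin n) R)) := fun g hg =>
  ⟨h g fun p hp => hg p fun x hx => hp x hx.1, (e g).2 fun i j a => by
    have := hg (MvPolynomial.X (i, j) - MvPolynomial.C (c i j)) fun x hx => by
      rw [map_sub, ev_X, ev_C, (e x).1 hx.2 i j a, sub_self]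
    rwa [map_sub, ev_X, ev_C, sub_eq_zero] at this⟩

end alg

variable {n : ℕ} {k : Type} [NontriviallyNormedField k] {G H : Subgroup (GL (Fin n) k)}
  {𝔤 𝔥 : Submodule k (Mt n k)} {X : Mt n k} {y : Fin n → ℤ}

theorem ev_fy : ∀ᶠ x in 𝓝 (1 : Mt n k), fy y x ≠ 0 :=
  (pf_fy y).continuous.continuousAt.eventually_ne (by rw [fy_one]; exact one_ne_zero)

theorem Nice.rf (h : Nice G 𝔤) {F : Mt n k → k} (hF : RF y F)
    (h0 : ∀ᶠ x in 𝓝 (1 : Mt n k), Mem G x → F x = 0) {g : GL (Fin n) k} (hg : g ∈ G)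
    (hf : fy y (g : Mt n k) ≠ 0) : F g = 0 := by
  obtain ⟨N, q, hq⟩ := hF
  have := h.dense q ((h0.and ev_fy).mono fun x a b => by rw [← hq x a.2, a.1 b, zero_mul]) g hg
  rw [← hq _ hf] at this
  exact (mul_eq_zero.1 this).resolve_right (pow_ne_zero _ hf)

/-- a regular retraction of the big cell onto a subgroup -/
theorem Nice.retr (h : Nice G 𝔤) (hH : H ≤ G) (hc : ZCl (H : Set (GL (Fin n) k))) (hch : Chart H 𝔥)
    {r : Mt n k → Mt n k} (h1 : ∀ i j, RF y fun x => r x i j) (h2 : ContinuousAt r 1)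
    (h3 : ∀ g ∈ G, fy y (g : Mt n k) ≠ 0 → Mem H (r g))
    (h4 : ∀ g ∈ H, fy y (g : Mt n k) ≠ 0 ∧ r g = g) : Nice H 𝔥 := by
  have h5 : Tendsto r (𝓝 1) (𝓝 1) := by
    have := h2.tendsto
    rwa [show r 1 = 1 from (h4 1 H.one_mem).2] at this
  refine ⟨fun g hg => h.det1 g (hH hg), hc, ⟨fun e => ?_, fun {p q} hpq => ?_⟩, fun p hp g hg => ?_, hch⟩
  · exact one_ne_zero ((map_one _).symm.trans (((Ideal.eq_top_iff_one _).1 e) 1 H.one_mem))
  · obtain ⟨N, p', hp⟩ := RF.comp (PF.of p) h1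
    obtain ⟨M, q', hq⟩ := RF.comp (PF.of q) h1
    obtain ⟨f, hf⟩ := pf_fy (R := k) y
    have k1 : ∀ {N : ℕ} {p p' : Pl n k}, (∀ x, fy y x ≠ 0 → ev (r x) p * fy y x ^ N = ev x p') →
        p' ∈ van (G : Set (GL (Fin n) k)) → p ∈ van (H : Set (GL (Fin n) k)) := fun e a g hg => by
      have := e _ (h4 g hg).1
      rw [a g (hH hg), (h4 g hg).2] at this
      exact (mul_eq_zero.1 this).resolve_right (pow_ne_zero _ (h4 g hg).1)
    have k2 : p' * q' * f ∈ van (G : Set (GL (Fin n) k)) := fun g hg => by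
      rw [map_mul, map_mul, ← hf]
      by_cases c : fy y (g : Mt n k) = 0
      · rw [c, mul_zero]
      · obtain ⟨x, hx, e⟩ := h3 g hg c
        rw [← hp _ c, ← hq _ c, mul_mul_mul_comm, ← map_mul, ← e, hpq x hx, zero_mul, zero_mul]
    refine ((h.prime.mem_or_mem k2).resolve_right fun c => ?_) |> h.prime.mem_or_mem |>.imp (k1 hp) (k1 hq)
    exact one_ne_zero ((fy_one y).symm.trans ((hf _).trans (c 1 G.one_mem)))
  · rw [← (h4 g hg).2]
    refine h.rf (RF.comp (PF.of p) h1) ?_ (hH hg) (h4 g hg).1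
    filter_upwards [h5.eventually hp, ev_fy (y := y)]
    rintro _ a b ⟨x, hx, rfl⟩
    exact a (h3 x hx b)

theorem ent_zero {t : kˣ} (ht : ‖(t : k)‖ < 1) {c : k} {d : ℤ} (hd : d ≤ 0) {f : ℕ → k}
    (e : ∀ m, f m = ((t ^ m : kˣ) : k) ^ d * c) (h : Tendsto f atTop (𝓝 0)) : c = 0 := by
  refine norm_le_zero_iff.1 (ge_of_tendsto' (norm_zero (E := k) ▸ h.norm) fun m => ?_)
  rw [e, norm_mul, norm_zpow]
  exact le_mul_of_one_le_left (norm_nonneg _) (one_le_zpow_of_nonpos₀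
    (norm_pos_iff.2 (t ^ m).ne_zero) (by simpa using pow_le_one₀ (norm_nonneg _) ht.le) hd)

theorem tend_zpow {t : kˣ} (ht : ‖(t : k)‖ < 1) {d : ℤ} (hd : 0 < d) :
    Tendsto (fun m : ℕ => ((t ^ m : kˣ) : k) ^ d) atTop (𝓝 0) := by
  obtain ⟨d, rfl⟩ := Int.eq_ofNat_of_zero_le hd.le
  have := (tendsto_pow_atTop_nhds_zero_of_norm_lt_one ht).pow d
  rw [zero_pow (by omega)] at this
  simpa using this

theorem tend_Ad {t : kˣ} (ht : ‖(t : k)‖ < 1) (hX : Fl y 1 X) :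
    Tendsto (fun m : ℕ => Ad (tor y (t ^ m)) X) atTop (𝓝 0) :=
  tendsto_pi_nhds.2 fun i => tendsto_pi_nhds.2 fun j => by
    simp only [Ad_apply, tor_conj]
    by_cases e : X i j = 0
    · simp [e]
    · simpa using (tend_zpow ht (d := y i - y j) (by have := hX i j e; omega)).mul_const (X i j)

variable [CompleteSpace k]

theorem tend_Ad' {t : kˣ} (ht : ‖(t : k)‖ < 1) {u : Mt n k} (hu : Un y u) :
    Tendsto (fun m : ℕ => Ad (tor y (t ^ m)) u) atTop (𝓝 1) := by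
  simpa [map_sub, Ad_one] using (tend_Ad ht hu).add_const 1

namespace EC

variable {π : Module.End k (Mt n k)} {θ σ : Mt n k → Mt n k} (h : EC G 𝔤 π θ σ) (hy : y ∈ Y G)
include h hy

theorem un : ∀ᶠ X in 𝓝 (0 : Mt n k), X ∈ 𝔤 → Fl y 1 X → Un y (σ X) := by
  obtain ⟨t, ht⟩ := exists_small k
  obtain ⟨ε, h0, h1⟩ := h.equi hy ht
  refine Metric.eventually_nhds_iff.2 ⟨ε, h0, fun X hε hX hf i j e => by_contra fun c => e ?_⟩
  have := (h.tend.comp (tend_Ad ht hf)).sub_const 1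
  rw [sub_self] at this
  refine ent_zero ht (d := y i - y j) (by omega) (fun m => ?_)
    (tendsto_pi_nhds.1 (tendsto_pi_nhds.1 this i) j)
  rw [Function.comp, ← (h1 X hX (by simpa using hε) (hf.mono zero_le_one) m).1,
    ← tor_conj, ← Ad_apply, map_sub, Ad_one]

theorem pp : ∀ᶠ X in 𝓝 (0 : Mt n k), X ∈ 𝔤 → Pp y X → Pp y (σ X) := by
  obtain ⟨t, ht⟩ := exists_small k
  obtain ⟨ε, h0, h1⟩ := h.equi hy ht
  obtain ⟨δ, h2, h3⟩ := Metric.eventually_nhds_iff.1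
    (h.tend.eventually (Metric.ball_mem_nhds 1 one_pos))
  refine Metric.eventually_nhds_iff.2 ⟨min ε δ, lt_min h0 h2, fun X hε hX hf i j e =>
    by_contra fun c => e ?_⟩
  rw [dist_zero_right, lt_min_iff] at hε
  refine ent_zero ht (d := y i - y j + 1) (by omega) (fun m => rfl)
    (squeeze_zero_norm (fun m => ?_) (by simpa using
      (tendsto_pow_atTop_nhds_zero_of_norm_lt_one ht).norm.mul_const (1 + ‖(1 : Mt n k)‖)))
  obtain ⟨a, b⟩ := h1 X hX hε.1 hf m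
  rw [zpow_add_one₀ (t ^ m).ne_zero, mul_right_comm, ← tor_conj, ← Ad_apply, a, norm_mul, mul_comm,
    Units.val_pow_eq_pow_val, norm_pow]
  refine mul_le_mul_of_nonneg_left ((norm_entry_le_entrywise_sup_norm _).trans ?_) (by positivity)
  exact (norm_le_norm_add_norm_sub' _ 1).trans (by
    have := h3 (y := Ad (tor y (t ^ m)) X) (by simpa using b.trans_lt hε.2)
    rw [dist_eq_norm] at this
    linarith)

theorem lv : ∀ᶠ X in 𝓝 (0 : Mt n k), X ∈ 𝔤 → Lv y X → Lv y (σ X) :=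
  ((h.pp hy).and (h.pp (neg_mem hy))).mono fun _ a b c => P092AL.lv_of (a.1 b c.pp) (a.2 b c.pm)

omit hy in
/-- the same chart works for the subgroups defined by vanishing entries -/
theorem sub (W : Submodule k (Mt n k)) (h1 : ∀ X ∈ W, π X ∈ W)
    (h2 : ∀ g : GL (Fin n) k, g ∈ H ↔ (g : Mt n k) - 1 ∈ W)
    (h3 : ∀ᶠ X in 𝓝 (0 : Mt n k), X ∈ 𝔤 → X ∈ W → σ X - 1 ∈ W) : Chart (G ⊓ H) (𝔤 ⊓ W) := by
  refine ⟨θ, h.an, h.one, h.der, ?_⟩
  filter_upwards [h.ch, h.tend'.eventually h3] with x a b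
  refine ⟨?_, fun c => ?_⟩
  · rintro ⟨g, hg, rfl⟩
    exact ⟨a.1.1 ⟨g, hg.1, rfl⟩, a.2.1 ⟨g, hg.1, rfl⟩ ▸ h1 _ ((h2 g).1 hg.2)⟩
  · obtain ⟨g, hg, rfl⟩ := a.1.2 c.1
    exact ⟨g, ⟨hg, (h2 g).2 (a.2.2 ▸ b c.1 c.2)⟩, rfl⟩

theorem near : ∀ᶠ x in 𝓝 (1 : Mt n k), Mem G x → Mem G (P092AL.lo y x) ∧ Mem G (P092AL.up y x) := by
  haveI := FiniteDimensional.complete k (Mt n k)
  let Y' : Y G := ⟨y, hy⟩
  let A := cl (msk G (fun γ => γ Y' < 0) ∘ₗ π)
  let B := cl (msk G (fun γ => γ Y' = 0) ∘ₗ π)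
  let C := cl (msk G (fun γ => 0 < γ Y') ∘ₗ π)
  have k1 : ∀ D : Mt n k →L[k] Mt n k, HasStrictFDerivAt (fun X => σ (D X)) D 0 := fun D =>
    (D.map_zero.symm ▸ h.der').comp 0 D.hasStrictFDerivAt
  have k2 : ∀ D : Mt n k →L[k] Mt n k, σ (D 0) = 1 := fun D => by rw [D.map_zero, h.zero]
  have k3 : ∀ D : Mt n k →L[k] Mt n k, Tendsto D (𝓝 0) (𝓝 0) := fun D =>
    D.continuous.tendsto' _ _ D.map_zero
  have d1 := hs_mul (hs_mul (k1 A) (k1 B) (k2 A) (k2 B)) (k1 C) (by rw [k2, k2, mul_one]) (k2 C)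
  have d2 : HasStrictFDerivAt (fun X => σ (A X) * σ (B X) * σ (C X) + (X - cl π X))
      (ContinuousLinearEquiv.refl k (Mt n k) : Mt n k →L[k] Mt n k) 0 :=
    (d1.add ((hasStrictFDerivAt_id _).sub (cl π).hasStrictFDerivAt)).congr_fderiv
      (ContinuousLinearMap.ext fun X => by
        have : A X + B X + C X = π X := Matrix.ext fun i j => by
          show msk G (fun γ => γ Y' < 0) (π X) i j + msk G (fun γ => γ Y' = 0) (π X) i j +
            msk G (fun γ => 0 < γ Y') (π X) i j = _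
          simp only [msk_apply]
          rcases lt_trichotomy (rt G i j Y') 0 with c | c | c
          · simp [c, c.ne, c.le.not_gt]
          · simp [c]
          · simp [c, c.ne', c.le.not_gt]
        show A X + B X + C X + (X - π X) = X
        rw [this, add_sub_cancel])
  have m := d2.map_nhds_eq_of_equiv
  have t1 := d1.continuousAt.tendsto
  simp only [h.zero, mul_one, map_zero, sub_zero, add_zero] at m t1
  refine Eventually.filter_mono m.ge (eventually_map.2 ?_)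
  filter_upwards [(k3 A).eventually (h.sig.and (h.un (neg_mem hy))),
    (k3 B).eventually (h.sig.and (h.lv hy)), (k3 C).eventually (h.sig.and (h.un hy)),
    t1.eventually h.left, (show Tendsto _ _ _ from m.le).eventually h.left] with X a b c d e hx
  have mA : A X ∈ 𝔤 := h.chart.msk_mem (fun γ => γ Y' < 0) (h.mem X)
  have mB : B X ∈ 𝔤 := h.chart.msk_mem (fun γ => γ Y' = 0) (h.mem X)
  have mC : C X ∈ 𝔤 := h.chart.msk_mem (fun γ => 0 < γ Y') (h.mem X)
  have e1 := e hx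
  rw [add_sub_right_comm, map_add, map_sub π X, show π (cl π X) = π X from h.fix _ (h.mem X), sub_self,
    add_zero, d (mem_mul (mem_mul (a.1 mA).1 (b.1 mB).1) (c.1 mC).1)] at e1
  obtain ⟨z, -, hz⟩ := (b.1 mB).1
  obtain ⟨f1, -, f2⟩ := P092AL.ldu_eq
    (a.2 mA fun i j e => by
      have : y i - y j < 0 := msk_mem (P := fun γ => γ Y' < 0) (X := π X) i j e
      simp only [Pi.neg_apply]; omega)
    (b.2 mB fun i j e => sub_eq_zero.1 (msk_mem (P := fun γ => γ Y' = 0) (X := π X) i j e))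
    (c.2 mC fun i j e => by
      have : 0 < y i - y j := msk_mem (P := fun γ => 0 < γ Y') (X := π X) i j e
      omega)
    (hz ▸ gl_unit z)
  rw [← e1, f1, f2]
  exact ⟨(a.1 mA).1, (c.1 mC).1⟩

end EC

/-- **the big cell of `G`** -/
theorem Nice.cell (h : Nice G 𝔤) : Cell G := fun y hy g hg hf => by
  obtain ⟨π, θ, σ, e⟩ := h.chart.ec
  have key : ∀ {r : Mt n k → Mt n k} (g' : GL (Fin n) k), (∀ i j, RF y fun x => r x i j) → r g = g' →
      (∀ᶠ x in 𝓝 (1 : Mt n k), Mem G x → Mem G (r x)) → g' ∈ G := fun g' h1 h2 h3 =>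
    h.closed _ fun p hp => h2 ▸ h.rf (RF.comp (PF.of p) h1)
      (h3.mono fun x a b => by obtain ⟨z, hz, e⟩ := a b; rw [← e]; exact hp z hz) hg hf
  exact ⟨key _ rf_lo rfl ((e.near hy).mono fun _ a b => (a b).1),
    key _ rf_up rfl ((e.near hy).mono fun _ a b => (a b).2)⟩

variable (k) in
/-- the block diagonal matrices -/
def LS (y : Fin n → ℤ) : Submodule k (Mt n k) := FS k y 0 ⊓ FS k (-y) 0

omit [CompleteSpace k] in
theorem mem_LS : X ∈ LS k y ↔ Lv y X := ⟨fun h => P092AL.lv_of h.1 h.2, fun h => ⟨h.pp, h.pm⟩⟩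

theorem Nice.levi (h : Nice G 𝔤) (hy : y ∈ Y G) : Nice (G ⊓ Lgl y) (𝔤 ⊓ LS k y) := by
  obtain ⟨π, θ, σ, e⟩ := h.chart.ec
  have k1 : ∀ x : Mt n k, Lv y x ↔ x - 1 ∈ LS k y := fun x =>
    mem_LS.symm.trans ((LS k y).sub_mem_iff_left (mem_LS.2 Lv.one)).symm
  refine h.retr inf_le_left (h.closed.inf _ 0 fun _ => Iff.rfl)
    (e.sub _ (fun X a => ⟨e.fl hy a.1, e.fl (neg_mem hy) a.2⟩) (fun g => isL_lv.trans (k1 _))
      ((e.lv hy).mono fun X a b c => (k1 _).1 (a b (mem_LS.1 c))))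
    rf_md (P092AL.contAt_md (by rw [P092AL.ff_one]; exact one_ne_zero))
    (fun g hg hf => ⟨mdG y g, ⟨h.cell.md hy hg hf, mdG_mem hf⟩, rfl⟩) fun g hg =>
    ⟨fy_P_ne (Lgl_le_Pgl y hg.2), congrArg Units.val (mdG_L' hg.2)⟩

theorem Nice.unip (h : Nice G 𝔤) (hy : y ∈ Y G) : Nice (G ⊓ Ugl y) (𝔤 ⊓ FS k y 1) := by
  obtain ⟨π, θ, σ, e⟩ := h.chart.ec
  exact h.retr inf_le_left (h.closed.inf _ 1 fun _ => Iff.rfl)
    (e.sub _ (fun X a => e.fl hy a) (fun g => isU_un) (e.un hy))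
    rf_up (P092AL.contAt_up (by rw [P092AL.ff_one]; exact one_ne_zero))
    (fun g hg hf => ⟨upG y g, ⟨(h.cell y hy g hg hf).2, upG_mem y g⟩, rfl⟩) fun g hg =>
    ⟨fy_P_ne (Ugl_le_Pgl y hg.2), congrArg Units.val (upG_U hg.2)⟩

end Vale.Agent.P092AG
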