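import Mathlib.LinearAlgebra.Matrix.Block
import Mathlib.LinearAlgebra.Matrix.NonsingularInverse
import Mathlib.Topology.Instances.Matrix
import Mathlib.Topology.Algebra.Field
import Mathlib.Tactic.NoncommRing

/-!
P092, group side (helper72): the block LDU decomposition of matrices for a grading `y`.
-/

set_option linter.all false

open Matrix Finset

namespace Vale.Agent.P092AL

variable {ι : Type} [Fintype ι] [DecidableEq ι]

section ring

variable {R : Type} [CommRing R] {y : ι → ℤ} {i j c : ℤ} {M N g u v p z : Matrix ι ι R}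

/-- `M` raises the degree by at least `j` -/
def Fl (y : ι → ℤ) (j : ℤ) (M : Matrix ι ι R) : Prop := ∀ a b, M a b ≠ 0 → y b + j ≤ y a

/-- block upper triangular -/
def Pp (y : ι → ℤ) (M : Matrix ι ι R) : Prop := Fl y 0 M

/-- block upper unitriangular -/
def Un (y : ι → ℤ) (M : Matrix ι ι R) : Prop := Fl y 1 (M - 1)

/-- block diagonal -/
def Lv (y : ι → ℤ) (M : Matrix ι ι R) : Prop := ∀ a b, M a b ≠ 0 → y a = y b

theorem Fl.zero : Fl y j (0 : Matrix ι ι R) := fun _ _ e => absurd rfl e

theorem Fl.mul (h : Fl y i M) (h' : Fl y j N) : Fl y (i + j) (M * N) := fun a b e => by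
  rw [Matrix.mul_apply] at e
  obtain ⟨c, -, hc⟩ := exists_ne_zero_of_sum_ne_zero e
  have := h _ _ (left_ne_zero_of_mul hc)
  have := h' _ _ (right_ne_zero_of_mul hc)
  omega

theorem Fl.add (h : Fl y i M) (h' : Fl y i N) : Fl y i (M + N) := fun a b e => by
  by_cases c : M a b = 0
  · exact h' a b fun c' => e (by rw [Matrix.add_apply, c, c', add_zero])
  · exact h a b c

theorem Fl.neg (h : Fl y i M) : Fl y i (-M) := fun a b e => h a b fun c => e (by simp [c])

theorem Fl.sub (h : Fl y i M) (h' : Fl y i N) : Fl y i (M - N) := sub_eq_add_neg M N ▸ h.add h'.neg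

theorem Fl.smul (h : Fl y i M) (t : R) : Fl y i (t • M) := fun a b e => h a b fun c => e (by simp [c])

theorem Fl.mono (h : Fl y i M) (hj : j ≤ i) : Fl y j M := fun a b e => by
  have := h a b e
  omega

theorem Fl.transpose (h : Fl y i M) : Fl (-y) i Mᵀ := fun a b e => by
  have := h b a e
  simp only [Pi.neg_apply]
  omega

theorem Fl.eq_zero (h : Fl y i M) (h' : Fl (-y) j M) (hij : 0 < i + j) : M = 0 := by
  ext a b
  by_contra e
  have := h a b e
  have := h' a b e
  simp only [Pi.neg_apply] at this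
  omega

theorem Lv.pp (h : Lv y M) : Pp y M := fun a b e => by have := h a b e; omega

theorem Lv.neg (h : Lv y M) : Lv (-y) M := fun a b e => by simp [h a b e]

theorem Lv.pm (h : Lv y M) : Pp (-y) M := h.neg.pp

theorem lv_of (h : Pp y M) (h' : Pp (-y) M) : Lv y M := fun a b e => by
  have := h a b e
  have := h' a b e
  simp only [Pi.neg_apply] at this
  omega

theorem lv_diag (d : ι → R) : Lv y (diagonal d) := fun a b e => by
  rw [show a = b from not_not.1 fun c => e (diagonal_apply_ne _ c)]

theorem Lv.one : Lv y (1 : Matrix ι ι R) := lv_diag _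

theorem Pp.one : Pp y (1 : Matrix ι ι R) := Lv.one.pp

theorem Pp.mul (h : Pp y M) (h' : Pp y N) : Pp y (M * N) := Fl.mul h h'

theorem Lv.mul (h : Lv y M) (h' : Lv y N) : Lv y (M * N) := lv_of (h.pp.mul h'.pp) (h.pm.mul h'.pm)

theorem Un.one : Un y (1 : Matrix ι ι R) := by rw [Un, sub_self]; exact Fl.zero

theorem Un.pp (h : Un y M) : Pp y M := by
  have := (h.mono zero_le_one).add (Pp.one (y := y) (R := R))
  rwa [sub_add_cancel] at this

theorem Un.mul (h : Un y M) (h' : Un y N) : Un y (M * N) := by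
  have : M * N - 1 = (M - 1) * N + (N - 1) := by noncomm_ring
  rw [Un, this]
  exact (Fl.mul h h'.pp).add h'

theorem Un.conj (h : Un y u) (h1 : Pp y M) (h2 : Pp y N) (e : M * N = 1) : Un y (M * u * N) := by
  have : M * u * N - 1 = M * (u - 1) * N := by rw [mul_sub, sub_mul, mul_one, e]
  rw [Un, this]
  simpa using (Fl.mul h1 h).mul h2

theorem Un.transpose (h : Un y M) : Un (-y) Mᵀ := by
  have := Fl.transpose h
  rwa [transpose_sub, transpose_one] at this

theorem Un.eq_one (h : Un y M) (h' : Pp (-y) M) : M = 1 :=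
  sub_eq_zero.1 (Fl.eq_zero h (h'.sub Pp.one) one_pos)

theorem Un.diag (h : Un y M) {a b : ι} (e : y a ≤ y b) : M a b = (1 : Matrix ι ι R) a b := by
  by_contra c
  have := h a b (by rwa [Matrix.sub_apply, sub_ne_zero])
  omega

theorem Un.det (h : Un y M) : M.det = 1 := by
  rw [det_apply', sum_eq_single 1, Equiv.Perm.sign_one]
  · simp [h.diag le_rfl]
  · intro σ _ hσ
    by_contra c
    have h3 : ∀ a, M (σ a) a ≠ 0 := fun a e =>
      right_ne_zero_of_mul c (prod_eq_zero (mem_univ a) e)
    obtain ⟨a, ha⟩ : ∃ a, σ a ≠ a := by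
      by_contra c
      exact hσ (Equiv.ext fun a => not_not.1 fun e => c ⟨a, e⟩)
    have h4 : ∑ a, y a < ∑ a, y (σ a) := sum_lt_sum (fun b _ => by simpa using h.pp _ _ (h3 b))
      ⟨a, mem_univ _, by_contra fun e => h3 a (by rw [h.diag (not_lt.1 e), one_apply_ne ha])⟩
    rw [Equiv.sum_comp σ y] at h4
    exact lt_irrefl _ h4
  · simp

theorem Pp.inv (h : Pp y M) : Pp y M⁻¹ := by
  by_cases hu : IsUnit M.det
  · have := invertibleOfIsUnitDet M hu
    have h1 : M.BlockTriangular (-y) := fun a b e => by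
      by_contra c
      have := h a b c
      simp only [Pi.neg_apply] at e
      omega
    intro a b e
    by_contra c
    exact e (blockTriangular_inv_of_blockTriangular h1 (by simp only [Pi.neg_apply]; omega))
  · rw [nonsing_inv_apply_not_isUnit _ hu]
    exact Fl.zero

theorem Lv.inv (h : Lv y M) : Lv y M⁻¹ := lv_of h.pp.inv h.pm.inv

theorem Un.unit (h : Un y M) : IsUnit M.det := h.det ▸ isUnit_one

theorem Un.inv (h : Un y M) : Un y M⁻¹ := by
  have : M⁻¹ - 1 = -(M⁻¹ * (M - 1)) := by rw [mul_sub, nonsing_inv_mul _ h.unit, mul_one, neg_sub]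
  rw [Un, this]
  simpa using (Fl.mul h.pp.inv h).neg

variable (R) in
/-- the projector on the degrees `> c` -/
def pj (y : ι → ℤ) (c : ℤ) : Matrix ι ι R := diagonal fun b => if c < y b then 1 else 0

/-- the truncation to the degrees `> c` -/
def tr (y : ι → ℤ) (c : ℤ) (g : Matrix ι ι R) : Matrix ι ι R :=
  pj R y c * g * pj R y c + (1 - pj R y c)

/-- the principal minor on the degrees `> c` -/
def mn (y : ι → ℤ) (c : ℤ) (g : Matrix ι ι R) : R := (tr y c g).det

/-- the product of the principal minors -/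
def ff (y : ι → ℤ) (g : Matrix ι ι R) : R := ∏ a, mn y (y a) g * mn y (y a - 1) g

theorem pj_sq : pj R y c * pj R y c = pj R y c := by
  rw [pj, diagonal_mul_diagonal]
  congr 1
  ext b
  split_ifs <;> simp

theorem pj_mul_apply (a b : ι) : (pj R y c * M) a b = if c < y a then M a b else 0 := by
  simp [pj, diagonal_mul]

theorem mul_pj_apply (a b : ι) : (M * pj R y c) a b = if c < y b then M a b else 0 := by
  simp [pj, mul_diagonal]

theorem pj_neg : pj R (-y) (-c) = 1 - pj R y (c - 1) := by
  rw [pj, pj, ← diagonal_one, diagonal_sub]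
  congr 1
  ext b
  simp only [Pi.neg_apply]
  split_ifs <;> first | omega | simp

theorem Pp.pj (h : Pp y p) : pj R y c * p * pj R y c = p * pj R y c := by
  ext a b
  rw [mul_pj_apply, mul_pj_apply, pj_mul_apply]
  split_ifs with h1 h2
  · rfl
  · by_contra e
    have := h a b (Ne.symm e)
    omega
  · rfl

theorem Pp.pj' (h : Pp (-y) p) : P092AL.pj R y c * p * P092AL.pj R y c = P092AL.pj R y c * p := by
  ext a b
  rw [mul_pj_apply, pj_mul_apply]
  split_ifs with h1 h2 h2
  · rfl
  · rfl
  · by_contra e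
    have := h a b (Ne.symm e)
    simp only [Pi.neg_apply] at this
    omega
  · rfl

theorem tr_mul' (M N : Matrix ι ι R) :
    tr y c M * tr y c N = pj R y c * M * pj R y c * N * pj R y c + (1 - pj R y c) := by
  have h : ∀ X : Matrix ι ι R, X * pj R y c * pj R y c = X * pj R y c := fun X => by
    rw [mul_assoc, pj_sq]
  simp only [tr, mul_add, add_mul, mul_sub, sub_mul, mul_one, one_mul, ← mul_assoc, h, pj_sq]
  abel

theorem tr_mul_right (h : Pp y p) (g : Matrix ι ι R) : tr y c (g * p) = tr y c g * tr y c p := by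
  rw [tr_mul', tr, ← mul_assoc, mul_assoc _ p, ← h.pj]
  simp only [mul_assoc]

theorem tr_mul_left (h : Pp (-y) p) (g : Matrix ι ι R) : tr y c (p * g) = tr y c p * tr y c g := by
  rw [tr_mul', tr, ← mul_assoc, h.pj']

theorem tr_one : tr y c (1 : Matrix ι ι R) = 1 := by rw [tr, mul_one, pj_sq, add_sub_cancel]

theorem tr_transpose : tr y c gᵀ = (tr y c g)ᵀ := by
  simp [tr, pj, transpose_mul, mul_assoc]

theorem mn_transpose : mn y c gᵀ = mn y c g := by rw [mn, tr_transpose, det_transpose, mn]

theorem ff_transpose : ff y gᵀ = ff y g := by simp only [ff, mn_transpose]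

theorem mn_one : mn y c (1 : Matrix ι ι R) = 1 := by rw [mn, tr_one, det_one]

theorem ff_one : ff y (1 : Matrix ι ι R) = 1 := by simp [ff, mn_one]

theorem mn_mul_right (h : Pp y p) (g : Matrix ι ι R) : mn y c (g * p) = mn y c g * mn y c p := by
  rw [mn, tr_mul_right h, det_mul, mn, mn]

theorem mn_mul_left (h : Pp (-y) p) (g : Matrix ι ι R) : mn y c (p * g) = mn y c p * mn y c g := by
  rw [mn, tr_mul_left h, det_mul, mn, mn]

theorem ff_mul_right (h : Pp y p) (g : Matrix ι ι R) : ff y (g * p) = ff y g * ff y p := by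
  simp only [ff, mn_mul_right h, ← prod_mul_distrib]
  exact prod_congr rfl fun _ _ => by ring

theorem ff_mul_left (h : Pp (-y) p) (g : Matrix ι ι R) : ff y (p * g) = ff y p * ff y g := by
  simp only [ff, mn_mul_left h, ← prod_mul_distrib]
  exact prod_congr rfl fun _ _ => by ring

theorem Un.tr {y' : ι → ℤ} (h : Un y' u) : Un y' (tr y c u) := by
  have : P092AL.tr y c u - 1 = pj R y c * (u - 1) * pj R y c := by
    rw [P092AL.tr, mul_sub, sub_mul, mul_one, pj_sq]
    abel
  rw [Un, this]
  simpa [pj] using (Fl.mul (lv_diag _).pp h).mul (lv_diag _).pp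

theorem Un.mn {y' : ι → ℤ} (h : Un y' u) : mn y c u = 1 := h.tr.det

theorem Un.ff {y' : ι → ℤ} (h : Un y' u) : ff y u = 1 := by simp [P092AL.ff, h.mn]

theorem mn_un_right (h : Un y u) (g : Matrix ι ι R) : mn y c (g * u) = mn y c g := by
  rw [mn_mul_right h.pp, h.mn, mul_one]

theorem mn_un_left (h : Un (-y) v) (g : Matrix ι ι R) : mn y c (v * g) = mn y c g := by
  rw [mn_mul_left h.pp, h.mn, one_mul]

theorem ff_un_right (h : Un y u) (g : Matrix ι ι R) : ff y (g * u) = ff y g := by
  rw [ff_mul_right h.pp, h.ff, mul_one]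

theorem ff_un_left (h : Un (-y) v) (g : Matrix ι ι R) : ff y (v * g) = ff y g := by
  rw [ff_mul_left h.pp, h.ff, one_mul]

theorem Pp.mn_unit (h : Pp y p) (hu : IsUnit p.det) : IsUnit (mn y c p) :=
  IsUnit.of_mul_eq_one (mn y c p⁻¹) (by rw [← mn_mul_right h.inv, mul_nonsing_inv _ hu, mn_one])

theorem Pp.ff_unit (h : Pp y p) (hu : IsUnit p.det) : IsUnit (ff y p) :=
  IsUnit.of_mul_eq_one (ff y p⁻¹) (by rw [← ff_mul_right h.inv, mul_nonsing_inv _ hu, ff_one])

theorem mn_diag (d : ι → R) : mn y c (diagonal d) = ∏ a, if c < y a then d a else 1 := by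
  rw [mn, tr, pj, diagonal_mul_diagonal, diagonal_mul_diagonal, ← diagonal_one, diagonal_sub,
    diagonal_add, det_diagonal]
  exact prod_congr rfl fun a _ => by split_ifs <;> simp

theorem mn_dvd (y : ι → ℤ) (c : ℤ) (g : Matrix ι ι R) : mn y c g ∣ ff y g := by
  by_cases h : ∃ a, c < y a
  · obtain ⟨a, ha, hm⟩ := exists_min_image (univ.filter fun a => c < y a) y
      (by obtain ⟨a, ha⟩ := h; exact ⟨a, by simpa using ha⟩)
    have : pj R y c = pj R y (y a - 1) := by
      rw [pj, pj]
      congr 1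
      ext b
      have h1 := (mem_filter.1 ha).2
      have h2 : c < y b → y a ≤ y b := fun e => hm b (by simpa using e)
      split_ifs <;> first | rfl | omega
    rw [mn, tr, this]
    exact (Dvd.intro_left _ rfl).trans (dvd_prod_of_mem _ (mem_univ a))
  · have : pj R y c = 0 := by
      rw [pj, ← diagonal_zero]
      congr 1
      ext b
      exact if_neg fun e => h ⟨b, e⟩
    simp [mn, tr, this]

theorem mn_bot (h : ∀ a, c < y a) : mn y c g = g.det := by
  have : pj R y c = 1 := by
    rw [pj, ← diagonal_one]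
    congr 1
    ext b
    exact if_pos (h b)
  simp [mn, tr, this]

theorem det_dvd (y : ι → ℤ) (g : Matrix ι ι R) : g.det ∣ ff y g := by
  obtain ⟨c, hc⟩ := (Set.finite_range y).bddBelow
  rw [← mn_bot (y := y) (c := c - 1) fun a => by have := hc ⟨a, rfl⟩; omega]
  exact mn_dvd _ _ _

theorem det_col (M : Matrix ι ι R) : (M * pj R y c + (1 - pj R y c)).det = mn y c M := by
  have h1 : M * pj R y c + (1 - pj R y c) = tr y c M * (1 + (1 - pj R y c) * M * pj R y c) := by
    have h : ∀ X : Matrix ι ι R, X * pj R y c * pj R y c = X * pj R y c := fun X => by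
      rw [mul_assoc, pj_sq]
    simp only [tr, mul_add, add_mul, mul_sub, sub_mul, mul_one, one_mul, ← mul_assoc, h, pj_sq]
    abel
  have h2 : Un (-y) (1 + (1 - pj R y c) * M * pj R y c) := fun a b e => by
    rw [add_sub_cancel_left, sub_mul, one_mul, mul_pj_apply, Matrix.sub_apply, pj_mul_apply] at e
    simp only [Pi.neg_apply]
    split_ifs at e <;> first | omega | simp at e
  rw [h1, det_mul, h2.det, mul_one, mn]

/-- Jacobi's identity for complementary minors -/
theorem mn_neg (e : g * M = 1) : mn (-y) (-c) g = g.det * mn y (c - 1) M := by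
  rw [← det_col, ← det_col, ← det_mul, mul_add, ← mul_assoc, e, one_mul, pj_neg, sub_sub_cancel,
    add_comm]

theorem ff_neg (e : g * M = 1) (hd : g.det = 1) : ff (-y) g = ff y M := by
  refine prod_congr rfl fun a _ => ?_
  have h1 := mn_neg (y := y) (c := y a) e
  have h2 := mn_neg (y := y) (c := y a + 1) e
  rw [hd, one_mul] at h1 h2
  rw [Pi.neg_apply, h1, show -y a - 1 = -(y a + 1) by ring, h2, add_sub_cancel_right, mul_comm]

/-- the inverse of the first factor -/
noncomputable def li (y : ι → ℤ) (g : Matrix ι ι R) : Matrix ι ι R :=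
  of fun a b => (1 - g * pj R y (y a) * (tr y (y a) g)⁻¹ * pj R y (y a)) a b

/-- the inverse of the last factor -/
noncomputable def ui (y : ι → ℤ) (g : Matrix ι ι R) : Matrix ι ι R := (li y gᵀ)ᵀ

/-- the first factor -/
noncomputable def lo (y : ι → ℤ) (g : Matrix ι ι R) : Matrix ι ι R := (li y g)⁻¹

/-- the last factor -/
noncomputable def up (y : ι → ℤ) (g : Matrix ι ι R) : Matrix ι ι R := (ui y g)⁻¹

/-- the middle factor -/
noncomputable def md (y : ι → ℤ) (g : Matrix ι ι R) : Matrix ι ι R := li y g * g * ui y g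

theorem un_li : Un (-y) (li y g) := fun a b e => by
  rw [Matrix.sub_apply, li, of_apply, Matrix.sub_apply, sub_sub_cancel_left, mul_pj_apply] at e
  simp only [Pi.neg_apply]
  split_ifs at e <;> first | omega | simp at e

theorem un_ui : Un y (ui y g) := by simpa [ui] using (un_li (y := y) (g := gᵀ)).transpose

theorem un_lo : Un (-y) (lo y g) := un_li.inv

theorem un_up : Un y (up y g) := un_ui.inv

theorem pp_li (h : IsUnit (ff y g)) : Pp y (li y g * g) := fun a b e => by
  by_contra c
  have h1 : (li y g * g) a b =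
      ((1 - g * pj R y (y a) * (tr y (y a) g)⁻¹ * pj R y (y a)) * g * pj R y (y a)) a b := by
    rw [mul_pj_apply, if_pos (by omega)]
    rfl
  have h2 : pj R y (y a) * g * pj R y (y a) = tr y (y a) g * pj R y (y a) := by
    rw [tr, add_mul, sub_mul, one_mul, pj_sq, sub_self, add_zero, mul_assoc (_ * g), pj_sq]
  rw [h1, sub_mul, sub_mul, one_mul, mul_assoc _ _ g, mul_assoc _ (_ * g), h2,
    mul_assoc _ _ (tr _ _ _ * _), nonsing_inv_mul_cancel_left _ _ (isUnit_of_dvd_unit (mn_dvd _ _ _) h),
    mul_assoc, pj_sq, sub_self] at e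
  exact e rfl

theorem pp_ui (h : IsUnit (ff y g)) : Pp (-y) (g * ui y g) := by
  have := Fl.transpose (pp_li (y := y) (g := gᵀ) (by rwa [ff_transpose]))
  rwa [transpose_mul, transpose_transpose] at this

theorem lv_md (h : IsUnit (ff y g)) : Lv y (md y g) :=
  lv_of ((pp_li h).mul un_ui.pp) (by rw [md, mul_assoc]; exact un_li.pp.mul (pp_ui h))

/-- **LDU** -/
theorem ldu (y : ι → ℤ) (g : Matrix ι ι R) : lo y g * md y g * up y g = g := by
  rw [md, lo, up, ← mul_assoc, ← mul_assoc, nonsing_inv_mul _ un_li.unit, one_mul,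
    mul_nonsing_inv_cancel_right _ _ un_ui.unit]

theorem det_md : (md y g).det = g.det := by
  rw [md, det_mul, det_mul, un_li.det, un_ui.det, one_mul, mul_one]

theorem mn_md : mn y c (md y g) = mn y c g := by rw [md, mn_un_right un_ui, mn_un_left un_li]

theorem ff_md : ff y (md y g) = ff y g := by rw [md, ff_un_right un_ui, ff_un_left un_li]

theorem lo_eq (hv : Un (-y) v) (hp : Pp y p) (hu : IsUnit p.det) : lo y (v * p) = v := by
  have h1 := (pp_li (y := y) (g := v * p) (by rw [ff_un_left hv]; exact hp.ff_unit hu)).mul hp.inv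
  rw [← mul_assoc, mul_nonsing_inv_cancel_right _ _ hu] at h1
  exact inv_eq_right_inv ((un_li.mul hv).eq_one (by rwa [neg_neg]))

theorem up_eq (hp : Pp (-y) p) (hv : Un y u) (hu : IsUnit p.det) : up y (p * u) = u := by
  have h0 : IsUnit (ff y (p * u)) := by
    rw [ff_un_right hv, ← ff_transpose]
    exact Pp.ff_unit (by simpa [Pp] using Fl.transpose hp) (by rwa [det_transpose])
  have h1 := hp.inv.mul (pp_ui h0)
  rw [mul_assoc, nonsing_inv_mul_cancel_left _ _ hu] at h1
  exact inv_eq_left_inv ((hv.mul un_ui).eq_one h1)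

/-- **uniqueness** -/
theorem ldu_eq (hv : Un (-y) v) (hz : Lv y z) (hu : Un y u) (hd : IsUnit z.det) :
    lo y (v * z * u) = v ∧ md y (v * z * u) = z ∧ up y (v * z * u) = u := by
  have h1 : lo y (v * z * u) = v := by
    rw [mul_assoc]
    exact lo_eq hv (hz.pp.mul hu.pp) (by rwa [det_mul, hu.det, mul_one])
  have h2 : up y (v * z * u) = u := up_eq (hv.pp.mul hz.pm) hu (by rwa [det_mul, hv.det, one_mul])
  refine ⟨h1, ?_, h2⟩
  have h3 := congrArg (fun X => v⁻¹ * X * u⁻¹) (ldu y (v * z * u))
  rw [h1, h2] at h3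
  generalize md y (v * z * u) = m at h3 ⊢
  simpa only [ mul_assoc, mul_nonsing_inv _ hu.unit, mul_one,
    nonsing_inv_mul_cancel_left _ _ hv.unit] using h3

end ring

section top

variable {k : Type} [Field k] [TopologicalSpace k] [IsTopologicalDivisionRing k] [T1Space k]
  {y : ι → ℤ} {c : ℤ}

theorem cont_tr : Continuous (tr y c : Matrix ι ι k → _) := by unfold tr; fun_prop

theorem cont_mn : Continuous (mn y c : Matrix ι ι k → k) := cont_tr.matrix_det

theorem cont_ff : Continuous (ff y : Matrix ι ι k → k) :=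
  continuous_finset_prod _ fun _ _ => cont_mn.mul cont_mn

theorem contAt_inv {X : Type} [TopologicalSpace X] {F : X → Matrix ι ι k} {x : X}
    (hF : ContinuousAt F x) (h : (F x).det ≠ 0) : ContinuousAt (fun x => (F x)⁻¹) x :=
  (continuousAt_matrix_inv _ (by
    rw [Ring.inverse_eq_inv']; exact continuousAt_inv₀ h)).comp hF

theorem contAt_li {g : Matrix ι ι k} (h : ff y g ≠ 0) : ContinuousAt (li y) g := by
  refine continuousAt_pi.2 fun a => continuousAt_pi.2 fun b => ?_
  have h1 : ContinuousAt (fun g : Matrix ι ι k => (tr y (y a) g)⁻¹) g :=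
    contAt_inv cont_tr.continuousAt (ne_zero_of_dvd_ne_zero h (mn_dvd _ _ _))
  have h2 : ContinuousAt (fun g : Matrix ι ι k =>
      1 - g * pj k y (y a) * (tr y (y a) g)⁻¹ * pj k y (y a)) g := continuousAt_const.sub
    (((continuousAt_id.mul continuousAt_const).mul h1).mul continuousAt_const)
  exact continuousAt_pi.1 (continuousAt_pi.1 h2 a) b

theorem contAt_ui {g : Matrix ι ι k} (h : ff y g ≠ 0) : ContinuousAt (ui y) g :=
  (continuous_id.matrix_transpose).continuousAt.comp
    ((contAt_li (by rwa [ff_transpose])).comp (continuous_id.matrix_transpose).continuousAt)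

theorem contAt_lo {g : Matrix ι ι k} (h : ff y g ≠ 0) : ContinuousAt (lo y) g :=
  contAt_inv (contAt_li h) un_li.unit.ne_zero

theorem contAt_up {g : Matrix ι ι k} (h : ff y g ≠ 0) : ContinuousAt (up y) g :=
  contAt_inv (contAt_ui h) un_ui.unit.ne_zero

theorem contAt_md {g : Matrix ι ι k} (h : ff y g ≠ 0) : ContinuousAt (md y) g :=
  ((contAt_li h).mul continuousAt_id).mul (contAt_ui h)

end top

end Vale.Agent.P092AL
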