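import Vale.Agent.P092AG.Br

/-!
P092, group side (helper72): complements on the big cell of `GL_n`.
-/

set_option linter.all false

open Matrix Finset Filter Topology

namespace Vale.Agent.P092AG

variable {n : ℕ} {R : Type} [Field R] {y : Fin n → ℤ} {a : ℤ} {g : GL (Fin n) R}

theorem mem_Lgl_of (h : g ∈ Pgl y) (h' : g ∈ Pgl (-y)) : g ∈ Lgl y := (isL_iff _ _).2 ⟨h, h'⟩

theorem eq_one_of (h : g ∈ Ugl y) (h' : g ∈ Pgl (-y)) : g = 1 :=
  Units.ext ((isU_un.1 h).eq_one (isP_pp.1 h'))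

/-- Jacobi's identity -/
theorem mn_neg (h : (g : Mt n R).det = 1) :
    mn (-y) a (g : Mt n R) = mn y (-a - 1) ((g⁻¹ : GL (Fin n) R) : Mt n R) := by
  have := P092AL.mn_neg (y := y) (c := -a) g.mul_inv
  rwa [neg_neg, h, one_mul] at this

theorem upG_P (h : g ∈ Pgl (-y)) : upG y g = 1 := by
  have := upG_eq h (Subgroup.one_mem _)
  rwa [mul_one] at this

theorem loG_U (h : g ∈ Ugl (-y)) : loG y g = g := by
  have := loG_eq h (Subgroup.one_mem _)
  rwa [mul_one] at this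

theorem upG_U (h : g ∈ Ugl y) : upG y g = g := by
  have := upG_eq (Subgroup.one_mem _) h
  rwa [one_mul] at this

theorem mdG_L' (h : g ∈ Lgl y) : mdG y g = g := by
  rw [mdG, loG_P (Lgl_le_Pgl y h), upG_P (Lgl_le_Pgl_neg y h), inv_one, one_mul, mul_one]

theorem fy_P_ne' (h : g ∈ Pgl (-y)) : fy y (g : Mt n R) ≠ 0 :=
  left_ne_zero_of_mul_eq_one (b := fy y ((g⁻¹ : GL (Fin n) R) : Mt n R))
    (by rw [← fy_left h, g.mul_inv, fy_one])

end Vale.Agent.P092AG
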