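import Vale.Agent.P092AL.GL
import Vale.Agent.P092CQ.Tan
import Mathlib.LinearAlgebra.Dual.Lemmas

/-!
P092, group side (helper72): weights of the torus on matrices, the equivariant chart.
-/

set_option linter.all false

open Matrix Finset Filter Topology
open scoped Matrix.Norms.Elementwise

namespace Vale.Agent.P092AG

open Vale.Agent.P092AL (Fl Pp Un Lv)
open Vale.Agent.P092CQ

section alg

variable {n : ℕ} {R : Type} [Field R] (G : Subgroup (GL (Fin n) R))

/-- the weight of the entry `(i, j)` -/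
def rt (i j : Fin n) : Y G →+ ℤ where
  toFun y := y.1 i - y.1 j
  map_zero' := by simp
  map_add' a b := by simp only [AddSubgroup.coe_add, Pi.add_apply]; ring

/-- multiplication of the weight components by scalars -/
def sch (φ : (Y G →+ ℤ) → R) : Module.End R (Mt n R) where
  toFun X := of fun i j => φ (rt G i j) * X i j
  map_add' X X' := by ext i j; simp [mul_add]
  map_smul' c X := by ext i j; simp [mul_left_comm]

open Classical in
/-- the part of `X` with weights in `P` -/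
noncomputable def msk (P : (Y G →+ ℤ) → Prop) : Module.End R (Mt n R) :=
  sch G fun γ => if P γ then 1 else 0

variable (R) in
/-- the matrices which raise the weight by at least `j` -/
def FS (y : Fin n → ℤ) (j : ℤ) : Submodule R (Mt n R) where
  carrier := {X | Fl y j X}
  add_mem' := Fl.add
  zero_mem' := Fl.zero
  smul_mem' := fun c _ h => h.smul c

/-- the matrices with weights in `P` -/
def WS (P : (Y G →+ ℤ) → Prop) : Submodule R (Mt n R) where
  carrier := {X | ∀ i j, X i j ≠ 0 → P (rt G i j)}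
  add_mem' := fun {X X'} h h' i j e => by
    by_cases c : X i j = 0
    · exact h' i j fun c' => e (by rw [Matrix.add_apply, c, c', add_zero])
    · exact h i j c
  zero_mem' := fun _ _ e => absurd rfl e
  smul_mem' := fun c X h i j e => h i j fun c => e (by simp [c])

variable {G} {φ ψ : (Y G →+ ℤ) → R} {P Q : (Y G →+ ℤ) → Prop} {X : Mt n R} {y : Fin n → ℤ}

theorem rt_apply (i j : Fin n) (y : Y G) : rt G i j y = y.1 i - y.1 j := rfl

theorem rt_self (i : Fin n) : rt G i i = 0 := AddMonoidHom.ext fun y => sub_self _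

theorem rt_add (i j l : Fin n) : rt G i j + rt G j l = rt G i l :=
  AddMonoidHom.ext fun y => sub_add_sub_cancel _ _ _

theorem rt_neg (i j : Fin n) : -rt G i j = rt G j i := AddMonoidHom.ext fun y => neg_sub _ _

theorem sch_apply (i j : Fin n) : sch G φ X i j = φ (rt G i j) * X i j := rfl

open Classical in
theorem msk_apply (i j : Fin n) : msk G P X i j = if P (rt G i j) then X i j else 0 := by
  simp [msk, sch_apply]

theorem sch_sch : sch G φ (sch G ψ X) = sch G (φ * ψ) X := by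
  ext i j
  simp [sch_apply, mul_assoc]

theorem sch_one : sch G φ 1 = φ 0 • (1 : Mt n R) := by
  ext i j
  by_cases e : i = j <;> simp [sch_apply, e, rt_self]

theorem mem_FS {j : ℤ} : X ∈ FS R y j ↔ Fl y j X := Iff.rfl

theorem mem_WS : X ∈ WS G P ↔ ∀ i j, X i j ≠ 0 → P (rt G i j) := Iff.rfl

theorem msk_mem : msk G P X ∈ WS G P := fun i j e => by
  rw [msk_apply] at e
  by_contra c
  exact e (if_neg c)

theorem msk_self (h : X ∈ WS G P) : msk G P X = X := by
  ext i j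
  rw [msk_apply]
  split_ifs with c
  · rfl
  · exact (not_not.1 (mt (h i j) c)).symm

theorem sch_WS (h : X ∈ WS G P) : sch G φ X ∈ WS G P := fun i j e => h i j (right_ne_zero_of_mul e)

theorem WS_mono (h : ∀ γ, P γ → Q γ) : WS G P ≤ WS G Q := fun _ hX i j e => h _ (hX i j e)

theorem FS_eq (y : Y G) (j : ℤ) : FS R y.1 j = WS G fun γ => j ≤ γ y :=
  Submodule.ext fun X => forall₃_congr fun a b _ => by simp only [rt_apply]; omega

open Classical in
theorem sch_eq_sum : sch G φ X =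
    ∑ γ ∈ univ.image fun p : Fin n × Fin n => rt G p.1 p.2, φ γ • msk G (· = γ) X := by
  ext i j
  rw [Matrix.sum_apply, sum_eq_single (rt G i j)]
  · simp [sch_apply, msk_apply]
  · intro γ _ e
    simp [msk_apply, e.symm]
  · exact fun h => absurd (mem_image.2 ⟨(i, j), mem_univ _, rfl⟩) h

end alg

section top

variable {n : ℕ} {k : Type} [NontriviallyNormedField k] {G : Subgroup (GL (Fin n) k)}
  {𝔤 : Submodule k (Mt n k)} {X : Mt n k} {y : Fin n → ℤ}

theorem Ad_tor (y : Y G) (t : kˣ) (X : Mt n k) :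
    Ad (tor y.1 t) X = sch G (fun γ => (t : k) ^ γ y) X :=
  Matrix.ext fun i j => tor_conj y.1 t X i j

theorem exists_small (k : Type) [NontriviallyNormedField k] : ∃ t : kˣ, ‖(t : k)‖ < 1 := by
  obtain ⟨t, h0, h1⟩ := NormedField.exists_norm_lt_one k
  exact ⟨Units.mk0 t (norm_pos_iff.1 h0), h1⟩

theorem zpow_inj {t : kˣ} (ht : ‖(t : k)‖ < 1) {a b : ℤ} (h : (t : k) ^ a = (t : k) ^ b) : a = b :=
  zpow_right_injective₀ (norm_pos_iff.2 t.ne_zero) ht.ne (by simpa using congrArg norm h)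

/-- a subspace stable under the torus is graded -/
theorem sch_mem_of {W : Submodule k (Mt n k)} (h : ∀ y ∈ Y G, ∀ t, ∀ X ∈ W, Ad (tor y t) X ∈ W)
    (φ : (Y G →+ ℤ) → k) (hX : X ∈ W) : sch G φ X ∈ W := by
  classical
  obtain ⟨t, ht⟩ := exists_small k
  let χ : (Y G →+ ℤ) → (Multiplicative (Y G) →* k) := fun γ =>
    { toFun := fun y => (t : k) ^ γ y.toAdd
      map_one' := by simp
      map_mul' := fun a b => by simp [zpow_add₀ t.ne_zero] }
  have h1 : Function.Injective χ := fun γ δ e => AddMonoidHom.ext fun y =>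
    zpow_inj ht (DFunLike.congr_fun e (Multiplicative.ofAdd y))
  rw [sch_eq_sum]
  refine sum_mem fun γ hγ => W.smul_mem _
    ((Subspace.forall_mem_dualAnnihilator_apply_eq_zero_iff W _).1 fun l hl => ?_)
  refine linearIndependent_iff'.1 ((linearIndependent_monoidHom _ k).comp χ h1) _
    (fun γ => l (msk G (· = γ) X)) (funext fun y => ?_) γ hγ
  have := (Submodule.mem_dualAnnihilator l).1 hl _ (h _ y.toAdd.2 t X hX)
  rw [Ad_tor, sch_eq_sum, map_sum] at this
  rw [Finset.sum_apply, Pi.zero_apply, ← this]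
  exact sum_congr rfl fun γ _ => by rw [map_smul, smul_eq_mul, mul_comm]; rfl

variable [CompleteSpace k]

theorem Chart.sch_mem (h : Chart G 𝔤) (φ : (Y G →+ ℤ) → k) (hX : X ∈ 𝔤) : sch G φ X ∈ 𝔤 :=
  sch_mem_of (fun y hy t _ => Ad_mem h (hy t)) φ hX

theorem Chart.msk_mem (h : Chart G 𝔤) (P : (Y G →+ ℤ) → Prop) (hX : X ∈ 𝔤) : msk G P X ∈ 𝔤 :=
  h.sch_mem _ hX

/-- an equivariant chart `θ` with local inverse `σ`, attached to a graded projection `π` -/
structure EC (G : Subgroup (GL (Fin n) k)) (𝔤 : Submodule k (Mt n k)) (π : Module.End k (Mt n k))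
    (θ σ : Mt n k → Mt n k) : Prop where
  mem : ∀ x, π x ∈ 𝔤
  fix : ∀ x ∈ 𝔤, π x = x
  gr : ∀ φ x, π (sch G φ x) = sch G φ (π x)
  an : AnalyticAt k θ 1
  one : θ 1 = 0
  der : HasFDerivAt θ (ContinuousLinearMap.id k (Mt n k)) 1
  ch : ∀ᶠ x in 𝓝 (1 : Mt n k), (Mem G x ↔ θ x ∈ 𝔤) ∧ (Mem G x → θ x = π (x - 1)) ∧ σ (θ x) = x
  an' : AnalyticAt k σ 0
  zero : σ 0 = 1
  der' : HasStrictFDerivAt σ (ContinuousLinearMap.id k (Mt n k)) 0
  inv : ∀ᶠ X in 𝓝 (0 : Mt n k), θ (σ X) = X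

theorem Chart.ec (h : Chart G 𝔤) : ∃ π θ σ, EC G 𝔤 π θ σ := by
  classical
  obtain ⟨p, hp⟩ := 𝔤.subtype.exists_leftInverse_of_injective 𝔤.ker_subtype
  have e : ∀ x ∈ 𝔤, (p x : Mt n k) = x := fun x a =>
    congrArg Subtype.val (LinearMap.congr_fun hp ⟨x, a⟩)
  let S := univ.image fun p : Fin n × Fin n => rt G p.1 p.2
  let π : Module.End k (Mt n k) :=
    ∑ γ ∈ S, msk G (· = γ) ∘ₗ (𝔤.subtype ∘ₗ p) ∘ₗ msk G (· = γ)
  have e1 : ∀ x, π x = ∑ γ ∈ S, msk G (· = γ) (p (msk G (· = γ) x)) := fun x =>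
    LinearMap.sum_apply _ _ _
  have e2 : ∀ φ γ x, sch G φ (msk G (· = γ) x) = φ γ • msk G (· = γ) x := fun φ γ x => by
    ext i j
    by_cases c : rt G i j = γ <;> simp [sch_apply, msk_apply, c]
  have h1 : ∀ x, π x ∈ 𝔤 := fun x => e1 x ▸ sum_mem fun γ _ => h.msk_mem _ (p _).2
  have h2 : ∀ x ∈ 𝔤, π x = x := fun x hx => by
    have : sch G 1 x = x := Matrix.ext fun i j => one_mul _
    rw [e1]
    refine Eq.trans (sum_congr rfl fun γ _ => ?_) (sch_eq_sum.symm.trans this)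
    rw [e _ (h.msk_mem _ hx), msk_self P092AG.msk_mem, Pi.one_apply, one_smul]
  obtain ⟨θ, a1, a2, a3, a4⟩ := chart_pr h π h1 h2
  haveI := FiniteDimensional.complete k (Mt n k)
  have h4 : HasStrictFDerivAt θ
      (ContinuousLinearEquiv.refl k (Mt n k) : Mt n k →L[k] Mt n k) 1 :=
    a1.hasStrictFDerivAt.congr_fderiv a3.fderiv
  refine ⟨π, θ, h4.localInverse _ _ _, h1, h2, fun φ x => ?_, a1, a2, a3,
    (a4.and h4.eventually_left_inverse).mono fun x a => ⟨a.1.1, a.1.2, a.2⟩, ?_,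
    a2 ▸ h4.localInverse_apply_image, a2 ▸ h4.to_localInverse, a2 ▸ h4.eventually_right_inverse⟩
  · rw [e1, e1, map_sum]
    refine sum_congr rfl fun γ _ => ?_
    rw [e2, show msk G (· = γ) (sch G φ x) = sch G φ (msk G (· = γ) x) by
      rw [msk, sch_sch, sch_sch, mul_comm], e2, map_smul, Submodule.coe_smul, map_smul]
  · exact a2 ▸ (h4.toOpenPartialHomeomorph θ).analyticAt_symm'
      (i := .refl k _)
      h4.mem_toOpenPartialHomeomorph_source a1 a3.fderiv

namespace EC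

variable {π : Module.End k (Mt n k)} {θ σ : Mt n k → Mt n k} (h : EC G 𝔤 π θ σ)
include h

theorem chart : Chart G 𝔤 := ⟨θ, h.an, h.one, h.der, h.ch.mono fun _ a => a.1⟩

theorem ws {P : (Y G →+ ℤ) → Prop} (hX : X ∈ WS G P) : π X ∈ WS G P := by
  rw [← msk_self hX, msk, h.gr]
  exact msk_mem

theorem fl (hy : y ∈ Y G) {j : ℤ} (hX : Fl y j X) : Fl y j (π X) := by
  rw [← mem_FS, FS_eq ⟨y, hy⟩] at hX ⊢
  exact h.ws hX

theorem pi_Ad (hy : y ∈ Y G) (t : kˣ) (x : Mt n k) :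
    π (Ad (tor y t) x - 1) = Ad (tor y t) (π (x - 1)) := by
  rw [Ad_tor ⟨y, hy⟩ t (π _), ← h.gr, ← Ad_tor ⟨y, hy⟩, map_sub (Ad _), Ad_one]

theorem tend : Tendsto σ (𝓝 0) (𝓝 1) := h.zero ▸ h.der'.continuousAt

theorem tend' : Tendsto θ (𝓝 1) (𝓝 0) := h.one ▸ h.der.continuousAt

theorem sig : ∀ᶠ X in 𝓝 (0 : Mt n k), X ∈ 𝔤 → Mem G (σ X) ∧ π (σ X - 1) = X := by
  filter_upwards [h.inv, h.tend.eventually h.ch] with X a b hX
  have := b.1.2 (a.symm ▸ hX)
  exact ⟨this, (b.2.1 this).symm.trans a⟩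

theorem left : ∀ᶠ x in 𝓝 (1 : Mt n k), Mem G x → σ (π (x - 1)) = x :=
  h.ch.mono fun _ a b => a.2.1 b ▸ a.2.2

/-- equivariance along a contracting cocharacter -/
theorem equi (hy : y ∈ Y G) {t : kˣ} (ht : ‖(t : k)‖ < 1) : ∃ ε > 0, ∀ X ∈ 𝔤, ‖X‖ < ε → Pp y X →
    ∀ m : ℕ, Ad (tor y (t ^ m)) (σ X) = σ (Ad (tor y (t ^ m)) X) ∧ ‖Ad (tor y (t ^ m)) X‖ ≤ ‖X‖ := by
  have c1 : Tendsto (Ad (tor y t)) (𝓝 1) (𝓝 1) :=
    (cl (Ad (tor y t))).continuous.tendsto' _ _ (Ad_one _)
  obtain ⟨ε, h0, h1⟩ := Metric.eventually_nhds_iff.1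
    (h.sig.and ((c1.comp h.tend).eventually h.left))
  refine ⟨ε, h0, fun X hX hε hp m => ?_⟩
  have h2 : ∀ m : ℕ, ‖Ad (tor y (t ^ m)) X‖ ≤ ‖X‖ := fun m =>
    (norm_le_iff (norm_nonneg _)).2 fun i j => by
      rw [Ad_apply, tor_conj, norm_mul]
      by_cases e : X i j = 0
      · simp [e]
      · have := hp i j e
        refine (mul_le_of_le_one_left (norm_nonneg _) ?_).trans (norm_entry_le_entrywise_sup_norm X)
        rw [norm_zpow]
        exact zpow_le_one₀ (norm_pos_iff.2 (t ^ m).ne_zero)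
          (by simpa using pow_le_one₀ (norm_nonneg _) ht.le) (by omega)
  refine ⟨?_, h2 m⟩
  induction m with
  | zero => simp [tor_one]
  | succ m ih =>
    obtain ⟨a, b⟩ := h1 (y := Ad (tor y (t ^ m)) X) (by simpa using (h2 m).trans_lt hε)
    have a := a (Ad_mem h.chart (hy _) hX)
    have := b (mem_Ad (fun x hx => G.mul_mem (G.mul_mem (hy t) hx) (G.inv_mem (hy t))) a.1)
    rw [Function.comp, h.pi_Ad hy, a.2] at this
    rw [pow_succ', tor_mul, map_mul, Module.End.mul_apply, Module.End.mul_apply, ih, this]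

end EC

end top

end Vale.Agent.P092AG
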