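import Vale.Agent.P092AL.Tw

/-!
P092, group side (helper72): the stabiliser of the line of `fy y` is the minimal parabolic subgroup
(Luna's argument).
-/

set_option linter.all false

open Matrix Finset Filter Topology
open scoped Matrix.Norms.Elementwise

namespace Vale.Agent.P092AG

open Vale.Agent.P092AL (Fl Pp Un Lv)
open Vale.Agent.P092CQ

variable {n : ℕ} {k : Type} [NontriviallyNormedField k] [ProperSpace k] {G : Subgroup (GL (Fin n) k)}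
  {𝔤 : Submodule k (Mt n k)} {y y' s : Fin n → ℤ} {u : GL (Fin n) k}

/-- fixed points of a cocharacter in `U⁻ / N` come from the Levi subgroup -/
theorem lift (hn : Nice G 𝔤) (hs : s ∈ Y G) (hu : u ∈ G ⊓ Ugl (-y))
    (hf : ∀ t, u⁻¹ * (tor s t * u * (tor s t)⁻¹) ∈ Hs G y) : (mdG s u)⁻¹ * u ∈ Hs G y := by
  obtain ⟨ϖ, h1, h2⟩ := exists_unif k
  have h3 := hn.cell s hs u hu.1 (by rw [fy_U hu.2]; exact one_ne_zero)
  have h4 := hn.cell.md hs hu.1 (by rw [fy_U hu.2]; exact one_ne_zero)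
  have h5 := comm_tor (mdG_mem (y := s) (g := u) (by rw [fy_U hu.2]; exact one_ne_zero))
  refine ⟨mul_mem (inv_mem h4) hu.1, fun w hw => ?_⟩
  rw [fy_U (mul_mem (inv_mem (mdG_of_U hu.2)) hu.2), mul_one]
  have h6 : ∀ t : kˣ, fy y ((w : Mt n k) * sc s (t : k) (upG s u : Mt n k)) = fy y ((w * ((mdG s u)⁻¹ *
      ((tor (-s) t⁻¹ * (loG s u)⁻¹ * (tor (-s) t⁻¹)⁻¹) * u)) : GL (Fin n) k) : Mt n k) := fun t => by
    have a := N_fy ⟨hf t, (Ugl _).mul_mem ((Ugl _).inv_mem hu.2)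
      (conj_U (G := ⊤) (fun _ => trivial) ⟨trivial, hu.2⟩ t).2⟩ (mul_mem hw (mul_mem (inv_mem h4)
        (mul_mem (tor_conj_mem (neg_mem hs) (inv_mem h3.1) t⁻¹) hu.1)))
    have b : ∀ a b c d e : GL (Fin n) k, c * a * e = d → b * a = a * b → w * (a⁻¹ * (b * c⁻¹ * b⁻¹ * d)) *
        (d⁻¹ * (b * d * b⁻¹)) = w * (b * e * b⁻¹) := by
      rintro a b c _ e rfl h
      calc _ = w * (a⁻¹ * (b * a)) * e * b⁻¹ := by group
        _ = _ := by rw [h]; group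
    rw [← a, ← sc_eq (Ugl_le_Pgl _ (upG_mem s u)), ← Units.val_mul, tor_neg, tor_inv, inv_inv,
      b _ _ _ _ _ (lmu s u) (h5 t)]
  have h7 := ((pf_fy y).contGL.tendsto _).comp ((((tendsto_conj (inv_mem (loG_mem s u)) h2).mul_const
    u).const_mul (mdG s u)⁻¹).const_mul w)
  have h8 := (pt_sc y s w (upG s u)).eq_of_bdd h1
    ((h7.norm.eventually (eventually_le_nhds (lt_add_one _))).mono fun j a => by rwa [h6, inv_inv])
  rw [one_mul] at h7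
  refine tendsto_nhds_unique h7 (tendsto_const_nhds.congr fun j => ?_)
  have := h8 0 ((ϖ ^ j)⁻¹ : kˣ)
  rwa [h6, inv_inv, sc_zero (upG_mem s u), mul_one] at this

/-- `Hs` is cocompact in the Levi subgroups -/
theorem cocpt (hn : Nice G 𝔤) (hy : y ∈ Y G) (hc : Cov G y) (hs : s ∈ Y G) :
    ∃ C : Set (GL (Fin n) k), IsCompact C ∧ C ⊆ (G ⊓ Lgl s : Subgroup _) ∧
      ∀ g ∈ G ⊓ Lgl s, ∃ c ∈ C, c⁻¹ * g ∈ Hs G y := by
  obtain ⟨E, R, h1, h2⟩ := hc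
  have key : ∀ e : E, ∃ C : Set (GL (Fin n) k), IsCompact C ∧ C ⊆ (G ⊓ Lgl s : Subgroup _) ∧
      ∀ g ∈ G ⊓ Lgl s, (∀ w ∈ G, ‖fy y ((w * g : GL (Fin n) k) : Mt n k)‖ ≤
        R w * ‖fy y ((e * g : GL (Fin n) k) : Mt n k)‖) → ∃ c ∈ C, c⁻¹ * g ∈ Hs G y := by
    rintro ⟨e, he⟩
    have he := h1 e he
    obtain ⟨C, c1, c2, c3⟩ := cpt_mod hn hn.cell hy fun w => R (w * e)
    obtain ⟨s', s1, s2⟩ := tw_right he hs
    obtain ⟨x, x1, x2⟩ : ∃ x ∈ G ⊓ Lgl s, ∀ x' ∈ G ⊓ Lgl s, e * x' ∈ Hs G y → e * x ∈ Hs G y := by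
      by_cases c : ∃ x ∈ G ⊓ Lgl s, e * x ∈ Hs G y
      · exact c.imp fun _ a => ⟨a.1, fun _ _ _ => a.2⟩
      · exact ⟨1, one_mem _, fun x a b => absurd ⟨x, a, b⟩ c⟩
    have f1 : ∀ c ∈ C, fy s' (c : Mt n k) ≠ 0 := fun c a => by rw [fy_U (c2 a).2]; exact one_ne_zero
    have f2 : ∀ c ∈ C, e⁻¹ * mdG s' c * e⁻¹⁻¹ ∈ G ⊓ Lgl s := fun c a =>
      ⟨G.mul_mem (G.mul_mem (G.inv_mem he.1) (hn.cell.md s1 (c2 a).1 (f1 c a))) (G.inv_mem (G.inv_mem he.1)),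
        s2.inv.L (mdG_mem (f1 c a))⟩
    refine ⟨(fun c => e⁻¹ * mdG s' c * e⁻¹⁻¹ * x) '' C, c1.image_of_continuousOn fun c a =>
      ((((contAt_mdG (f1 c a)).const_mul _).mul_const _).mul_const _).continuousWithinAt, ?_,
      fun g hg h => ?_⟩
    · rintro _ ⟨c, a, rfl⟩
      exact mul_mem (f2 c a) x1
    obtain ⟨c, a, b⟩ := c3 _ (mul_mem he.1 hg.1) fun w hw => by
      rw [← mul_assoc]; exact h _ (mul_mem hw he.1)
    have f3 := mul_mem (lift hn s1 (c2 a) fun t => by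
      have := mul_mem (mul_mem (mul_mem b (tor_Hs hs t)) (inv_mem b)) (inv_mem (tor_Hs (y := y) s1 t))
      rwa [show c⁻¹ * (e * g) * tor s t * (c⁻¹ * (e * g))⁻¹ * (tor s' t)⁻¹ =
        c⁻¹ * (e * (g * tor s t) * g⁻¹ * e⁻¹ * c * (tor s' t)⁻¹) by group, ← comm_tor hg.2,
        ← mul_assoc e, ← s2, mul_inv_cancel_right, mul_inv_cancel_right] at this) b
    refine ⟨_, ⟨c, a, rfl⟩, ?_⟩
    have f4 := x2 _ (mul_mem (inv_mem (f2 c a)) hg) (by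
      rwa [show e * ((e⁻¹ * mdG s' c * e⁻¹⁻¹)⁻¹ * g) = (mdG s' c)⁻¹ * c * (c⁻¹ * (e * g)) by group])
    rw [show (e⁻¹ * mdG s' c * e⁻¹⁻¹ * x)⁻¹ * g = (e * x)⁻¹ * ((mdG s' c)⁻¹ * c * (c⁻¹ * (e * g))) by group]
    exact mul_mem (inv_mem f4) f3
  choose C c1 c2 c3 using key
  refine ⟨⋃ e, C e, isCompact_iUnion c1, Set.iUnion_subset c2, fun g hg => ?_⟩
  obtain ⟨e, he, h⟩ := h2 g hg.1
  obtain ⟨c, a, b⟩ := c3 ⟨e, he⟩ g hg h
  exact ⟨c, Set.mem_iUnion.2 ⟨_, a⟩, b⟩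

theorem indep (hn : Nice G 𝔤) (hG : G ≤ Lgl s) (hy : y ∈ Y G) (hy' : y' ∈ Y G) (h : Sg s y' y)
    (hu : u ∈ Hs G y' ⊓ Ugl (-y')) : u ∈ Hs G y ⊓ Ugl (-y) := by
  refine mem_N_of hn hn.cell hy ⟨hu.1.1, h.neg.U (hG hu.1.1) hu.2⟩ fun v hv => ?_
  choose N q hq using rf_md (R := k) (y := y')
  let x : k → Mt n k := fun t => v * sc (-y') t u
  have h1 : ∀ i j, PT fun t => x t i j := PT.mulE (fun _ _ => PT.const _) (sc_pt _ _)
  have h2 := pt_const (F := ![fun t => fy y (x t), fun t => fy y (adjugate (of fun i j => ev (x t) (q i j)))])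
    (Fin.forall_fin_two.2 ⟨pt_sc _ _ _ _, (pf_fy y).pt fun i j => (PF.adj i j).pt fun a b =>
      (PF.of _).pt h1⟩) (fun t => ?_) 0 1 0
  · simpa only [x, Matrix.cons_val_zero, sc_one, sc_zero hu.2, mul_one, fy_U hv.2,
      Units.val_mul] using h2
  have h3 := N_conj (z := tor (-y') t) ⟨neg_mem hy' t, tor_mem_Lgl _ _ t⟩ hu
  obtain ⟨g, e, hg, hf⟩ : ∃ g : GL (Fin n) k, x t = g ∧ g ∈ G ∧ fy y' (g : Mt n k) = 1 :=
    ⟨_, by rw [Units.val_mul, sc_eq (Ugl_le_Pgl _ hu.2)], mul_mem hv.1 h3.1.1,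
      (N_fy h3 hv.1).trans (fy_U hv.2)⟩
  have h0 : fy y' (g : Mt n k) ≠ 0 := hf ▸ one_ne_zero
  have h4 := hn.cell y' hy' g hg h0
  have h5 := hn.cell.md hy' hg h0
  have h6 := h.L (hG h5) (mdG_mem h0)
  have h7 : (of fun i j => ev (g : Mt n k) (q i j)) = mdG y' g := Matrix.ext fun i j => by
    rw [of_apply, ← hq i j _ h0, hf, one_pow, mul_one, mdG_val]
  have h8 : adjugate (mdG y' g : Mt n k) = ((mdG y' g)⁻¹ : GL (Fin n) k) := by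
    rw [Matrix.coe_units_inv, Matrix.inv_def, hn.det1 _ h5, Ring.inverse_one, one_smul]
  simp only [Fin.prod_univ_two, Matrix.cons_val_zero, Matrix.cons_val_one, e, h7, h8]
  have h9 : fy y (g : Mt n k) = fy y (mdG y' g : Mt n k) := by
    conv_lhs => rw [← lmu y' g, Units.val_mul, Units.val_mul]
    rw [fy_right (Ugl_le_Pgl _ (h.U (hG h4.2) (upG_mem _ _))),
      fy_left (Ugl_le_Pgl _ (h.neg.U (hG h4.1) (loG_mem _ _))), fy_U (loG_mem _ _), fy_U (upG_mem _ _),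
      one_mul, mul_one]
  rw [h9, ← fy_left (Lgl_le_Pgl_neg _ h6), Units.mul_inv, fy_one]

theorem sub_N (hn : Nice G 𝔤) (hy : y ∈ Y G) (hc : Cov G y) (hs : s ∈ Y G)
    (hu : u ∈ Hs (G ⊓ Lgl s) y ⊓ Ugl (-y)) : u ∈ Hs G y := by
  obtain ⟨C, c1, c2, c3⟩ := cocpt hn hy hc hs
  obtain ⟨ϖ, h1, -⟩ := exists_unif k
  have h2 := fun j : ℕ => N_conj (G := G ⊓ Lgl s) (z := tor y (ϖ ^ j))
    ⟨⟨hy _, tor_mem_Lgl _ _ _⟩, tor_mem_Lgl _ _ _⟩ hu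
  choose c h3 h4 using fun j => c3 _ (h2 j).1.1
  have h5 : ∀ j, c j ∈ Hs (G ⊓ Lgl s) y := fun j => by
    have := (Hs _ y).mul_mem (h2 j).1 (inv_mem (Hs_levi (h4 j)
      (mul_mem ((G ⊓ Lgl s).inv_mem (c2 (h3 j))) (h2 j).1.1).2))
    rwa [_root_.mul_inv_rev, mul_inv_cancel_left, inv_inv] at this
  obtain ⟨r, hr⟩ := bdd_of_isCompact ((c1.inter_right (isClosed_Hs (hn.levi hs).closed.isClosed y)
    ).image_of_continuousOn fun x a => (contAt_loG (Hs_ne a.2)).continuousWithinAt)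
  have h6 := tend_unif h1 (fun j => loG_mem y (c j)) fun j => hr _ ⟨_, ⟨h3 j, h5 j⟩, rfl⟩
  refine ⟨hu.1.1.1, fun w hw => ?_⟩
  rw [fy_U hu.2, mul_one]
  have h7 := ((pf_fy y).continuous.tendsto _).comp (h6.const_mul (w : Mt n k))
  rw [mul_one] at h7
  refine tendsto_nhds_unique (tendsto_const_nhds.congr fun j => ?_) h7
  have a := hn.cell y hy _ (c2 (h3 j)).1 (Hs_ne (h5 j))
  have b := mul_mem (mul_mem (tor_Hs (neg_mem hy) (ϖ ^ j)) (mul_mem (P_le_Hs (mul_mem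
    (hn.cell.md hy (c2 (h3 j)).1 (Hs_ne (h5 j))) a.2) (md_up_mem (Hs_ne (h5 j)))) (h4 j)))
    (inv_mem (tor_Hs (neg_mem hy) (ϖ ^ j)))
  rw [show tor (-y) (ϖ ^ j) * (mdG y (c j) * upG y (c j) * ((c j)⁻¹ * (tor y (ϖ ^ j) * u * (tor y (ϖ ^ j))⁻¹))) *
    (tor (-y) (ϖ ^ j))⁻¹ = (tor (-y) (ϖ ^ j) * loG y (c j) * (tor (-y) (ϖ ^ j))⁻¹)⁻¹ * u by
      rw [mdG, tor_neg]; group] at b
  have d := conj_U (neg_mem hy) ⟨a.1, loG_mem y (c j)⟩ (ϖ ^ j)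
  rw [Function.comp, ← Units.val_mul, ← N_fy ⟨b, (Ugl _).mul_mem ((Ugl _).inv_mem d.2) hu.2⟩ (G.mul_mem hw d.1), mul_assoc,
    mul_inv_cancel_left]

/-- the hypotheses of the structure theory -/
structure Red (G : Subgroup (GL (Fin n) k)) (𝔤 : Submodule k (Mt n k)) : Prop where
  nice : Nice G 𝔤
  simp : Simp G
  cov : ∀ y, Reg G y → Cov G y
  cov' : ∀ s ∈ Y G, ∀ y, Reg G y → Cov (G ⊓ Lgl s) y

theorem eq_one_of_bdd {t : kˣ} (ht : ‖(t : k)‖ < 1) (hu : u ∈ Ugl (-y)) {r : ℝ}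
    (h : ∀ j : ℕ, ‖((tor y (t ^ j) * u * (tor y (t ^ j))⁻¹ : GL (Fin n) k) : Mt n k)‖ ≤ r) : u = 1 := by
  have := tend_unif ht (fun j => (conj_U (G := ⊤) (fun _ => trivial) ⟨trivial, hu⟩ (t ^ j)).2) h
  refine Units.ext (tendsto_nhds_unique (tendsto_const_nhds.congr fun j => ?_) this)
  rw [tor_neg]
  congr 1
  group

/-- the rank one case -/
theorem Red.ray (H : Red G 𝔤) (hs : s ∈ Y G) (hy : Reg G y) (h : ∀ z, Reg G z → Sg s y z ∨ Sg s y (-z))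
    (hu : u ∈ Hs (G ⊓ Lgl s) y ⊓ Ugl (-y)) : u = 1 := by
  rcases eq_or_ne y 0 with rfl | h0
  · exact eq_one_of hu.2 fun i j e => absurd e (lt_irrefl _)
  obtain ⟨ϖ, h1, -⟩ := exists_unif k
  have h2 : ∀ v ∈ Hs (G ⊓ Lgl s) y ⊓ Ugl (-y), ∀ z, Reg G z → ∀ x ∈ G,
      fy z ((v * x : GL (Fin n) k) : Mt n k) = fy z (x : Mt n k) := fun v hv z hz x hx => by
    rcases h z hz with c | c
    · rw [Units.val_mul, fy_left (Ugl_le_Pgl _ (c.neg.U hv.1.1.2 hv.2)), fy_U hv.2, one_mul]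
    · have a := indep (H.nice.levi hs) inf_le_right (Y_levi.ge hz.neg.1) (Y_levi.ge hy.1) c (inv_mem hv)
      have b := N_fy ⟨sub_N H.nice hz.neg.1 (H.cov _ hz.neg) hs a, a.2⟩ (inv_mem hx)
      rwa [← _root_.mul_inv_rev, fy_neg (H.nice.det1 _ (inv_mem (mul_mem hv.1.1.1 hx))),
        fy_neg (H.nice.det1 _ (inv_mem hx)), inv_inv, inv_inv] at b
  obtain ⟨E, R, e1, e2⟩ := H.cov y hy
  obtain ⟨r, hr⟩ := H.simp.bdd (pf_fy y) ⟨1, one_mem _, _, hy.1 ϖ, by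
    rw [one_mul, Units.val_one, fy_one]; exact fy_tor_ne h1 (H.nice.det1 _ (hy.1 ϖ)) h0⟩
    (A := (Hs (G ⊓ Lgl s) y ⊓ Ugl (-y) : Subgroup _)) (fun v hv => hv.1.1.1) (fun v hv => inv_mem hv)
    fun w hw w' hw' => ⟨∑ e ∈ E, |R w| * ‖fy y ((e * w' : GL (Fin n) k) : Mt n k)‖, fun v hv => by
      obtain ⟨e, a, b⟩ := e2 _ (mul_mem hv.1.1.1 hw')
      obtain ⟨z, c, d⟩ := tw_left (e1 e a) hy.1
      rw [mul_assoc]
      refine (b w hw).trans (le_trans ?_ (single_le_sum (fun _ _ => by positivity) a))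
      rw [d.fy, d.fy, mul_assoc, h2 v hv z (hy.tw (e1 e a) c d) _ (mul_mem hw' (e1 e a).1)]
      exact mul_le_mul_of_nonneg_right (le_abs_self _) (norm_nonneg _)⟩
  exact eq_one_of_bdd h1 hu.2 fun j => hr _ (N_conj (G := G ⊓ Lgl s)
    ⟨⟨hy.1 _, tor_mem_Lgl _ _ _⟩, tor_mem_Lgl _ _ _⟩ hu)

/-- `s` is a generic element of the kernel of `α` -/
def Gen (G : Subgroup (GL (Fin n) k)) (α : Y G →+ ℤ) (s : Y G) : Prop :=
  α s = 0 ∧ ∀ i j, s.1 i = s.1 j → ∀ z : Y G, α z = 0 → z.1 i = z.1 j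

omit [ProperSpace k] in
theorem exists_Gen (α : Y G →+ ℤ) : ∃ s, Gen G α s := by
  classical
  obtain ⟨s, hs⟩ := exists_gen (univ.filter fun p : Fin n × Fin n => (rt G p.1 p.2).comp α.ker.subtype ≠ 0)
    (fun p => (rt G p.1 p.2).comp α.ker.subtype) fun p hp => (mem_filter.1 hp).2
  exact ⟨s, s.2, fun i j e z hz => by_contra fun c => hs (i, j) (mem_filter.2 ⟨mem_univ _, fun d =>
    c (sub_eq_zero.1 (DFunLike.congr_fun d ⟨z, hz⟩))⟩) (sub_eq_zero.2 e)⟩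

omit [ProperSpace k] in
theorem Gen.sg {α : Y G →+ ℤ} {s y z : Y G} (h : Gen G α s) (hy : 0 < α y) (hz : 0 < α z) :
    Sg s.1 y.1 z.1 := fun i j e => by
  have := h.2 i j e (α y • z - α z • y) (by simp [mul_comm])
  simp only [AddSubgroup.coe_sub, AddSubgroup.coe_zsmul, Pi.sub_apply, Pi.smul_apply, smul_eq_mul] at this
  constructor <;> intro c <;> nlinarith

omit [ProperSpace k] in
theorem Gen.sg' {α : Y G →+ ℤ} {s y : Y G} (h : Gen G α s) (hy : 0 < α y)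
    (hα : ∀ z : Y G, Reg G z → α z ≠ 0) (z : Fin n → ℤ) (hz : Reg G z) : Sg s.1 y.1 z ∨ Sg s.1 y.1 (-z) :=
  (hα ⟨z, hz.1⟩ hz).lt_or_gt.symm.imp (h.sg hy) fun c =>
    h.sg (z := -⟨z, hz.1⟩) hy (by rwa [map_neg, neg_pos])

omit [ProperSpace k] in
theorem rt_ne {i j : Fin n} (h : rt G i j ≠ 0) (z : Y G) (hz : Reg G z) : rt G i j z ≠ 0 := fun c =>
  h (AddMonoidHom.ext fun w => sub_eq_zero.2 (hz.2 i j (sub_eq_zero.1 c) _ w.2))

/-- **`N(y)` is trivial** -/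
theorem Red.N_bot (H : Red G 𝔤) (hy : Reg G y) (hu : u ∈ Hs G y ⊓ Ugl (-y)) : u = 1 := by
  classical
  let Γ : GL (Fin n) k → Finset (Fin n × Fin n) := fun u =>
    univ.filter fun p => ((u : Mt n k) - 1) p.1 p.2 ≠ 0
  induction hm : (Γ u).card using Nat.strong_induction_on generalizing u with | _ m ih => ?_
  by_contra h0
  have h1 : ∀ p ∈ Γ u, 0 < y p.2 - y p.1 := fun p hp => by
    have := isU_un.1 hu.2 _ _ (mem_filter.1 hp).2
    simp only [Pi.neg_apply] at this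
    omega
  obtain ⟨p0, h2⟩ : (Γ u).Nonempty := by
    by_contra c
    exact h0 (Units.ext (sub_eq_zero.1 (Matrix.ext fun i j => by_contra fun d =>
      c ⟨(i, j), mem_filter.2 ⟨mem_univ _, d⟩⟩)))
  obtain ⟨s, hs⟩ := exists_Gen (rt G p0.2 p0.1)
  have h3 : 0 < rt G p0.2 p0.1 ⟨y, hy.1⟩ := h1 _ h2
  obtain ⟨p1, h4, h5⟩ : ∃ p ∈ Γ u, s.1 p.1 ≠ s.1 p.2 := by
    by_contra c
    push Not at c
    refine h0 (H.ray s.2 hy (hs.sg' h3 (rt_ne fun d => by simp [d] at h3)) ⟨Hs_levi hu.1 fun i j e => ?_, hu.2⟩)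
    have := mt (fun d => c (i, j) (mem_filter.2 ⟨mem_univ _, d⟩)) e
    rwa [not_not, Matrix.sub_apply, one_apply_ne fun d => e (congrArg _ d), sub_zero] at this
  obtain ⟨p, h6, h7⟩ := exists_min_image (Γ u)
    (fun p => ((s.1 p.1 - s.1 p.2 : ℤ) : ℚ) / ((y p.2 - y p.1 : ℤ) : ℚ)) ⟨_, h2⟩
  let s' : Fin n → ℤ := (y p.2 - y p.1) • s.1 + (s.1 p.1 - s.1 p.2) • y
  have h8 : s' ∈ Y G := add_mem (zsmul_mem s.2 _) (zsmul_mem hy.1 _)
  have h9 : ∀ q ∈ Γ u, s' q.2 ≤ s' q.1 := fun q hq => by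
    have := h7 q hq
    rw [div_le_div_iff₀ (by exact_mod_cast h1 _ h6) (by exact_mod_cast h1 _ hq)] at this
    have : (s.1 p.1 - s.1 p.2) * (y q.2 - y q.1) ≤ (s.1 q.1 - s.1 q.2) * (y p.2 - y p.1) := by
      exact_mod_cast this
    simp only [s', Pi.add_apply, Pi.smul_apply, smul_eq_mul]
    linarith
  have k1 : u ∈ Pgl s' := fun i j e => by
    have := mt (fun d => h9 (i, j) (mem_filter.2 ⟨mem_univ _, d⟩)) e.not_ge
    rwa [not_not, Matrix.sub_apply, one_apply_ne fun d => e.ne (congrArg _ d), sub_zero] at this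
  have k0 : ∀ v q, q ∈ Γ v ↔ (v : Mt n k) q.1 q.2 - (1 : Mt n k) q.1 q.2 ≠ 0 := fun v q =>
    mem_filter.trans (and_iff_right (mem_univ _))
  have k2 : ∀ q, q ∈ Γ (mdG s' u) ↔ q ∈ Γ u ∧ s' q.1 = s' q.2 := fun q => by
    rw [k0, k0, md_entry k1]
    split_ifs with c
    · simp [c]
    · simp [c, one_apply_ne fun d : q.1 = q.2 => c (by rw [d])]
  have k3 : mdG s' u ∈ Hs G y := by
    obtain ⟨ϖ, -, a⟩ := exists_unif k
    have b := (tendsto_conj (upG_mem s' u) a).const_mul (mdG s' u)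
    rw [mul_one] at b
    refine (isClosed_Hs H.nice.closed.isClosed y).mem_of_tendsto b (.of_forall fun j => ?_)
    have c := mul_mem (mul_mem (tor_Hs h8 (ϖ ^ j)) hu.1) (inv_mem (tor_Hs (y := y) h8 (ϖ ^ j)))
    have d := lmu s' u
    rw [loG_P k1, one_mul] at d
    rw [← mul_assoc, ← mul_assoc, ← comm_tor (mdG_mem (fy_P_ne k1)), mul_assoc _ _ (upG _ _), d]
    exact c
  refine (k0 _ p).1 ((k2 p).2 ⟨h6, by simp only [s', Pi.add_apply, Pi.smul_apply, smul_eq_mul]; ring⟩) ?_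
  rw [ih _ (hm ▸ card_lt_card ⟨fun q hq => ((k2 q).1 hq).1, fun c => ?_⟩) ⟨k3, mdG_of_U hu.2⟩ rfl,
    Units.val_one, sub_self]
  · have a := ((k2 _).1 (c h2)).2
    have b := ((k2 _).1 (c h4)).2
    have d : s.1 p0.2 - s.1 p0.1 = 0 := hs.1
    simp only [s', Pi.add_apply, Pi.smul_apply, smul_eq_mul] at a b
    have e : (s.1 p.1 - s.1 p.2) * (y p0.2 - y p0.1) = 0 := by linear_combination -a - (y p.2 - y p.1) * d
    have f := (mul_eq_zero.1 e).resolve_right (h1 _ h2).ne'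
    have g : (y p.2 - y p.1) * (s.1 p1.1 - s.1 p1.2) = 0 := by linear_combination b + (y p1.2 - y p1.1) * f
    exact h5 (sub_eq_zero.1 ((mul_eq_zero.1 g).resolve_left (h1 _ h6).ne'))

theorem Red.Hs_eq (H : Red G 𝔤) (hy : Reg G y) : Hs G y = G ⊓ Pgl y :=
  le_antisymm (fun h hh => ⟨hh.1, by
    rw [← lmu y h, H.N_bot hy (H.nice.cell.loN hy.1 hh), one_mul]
    exact md_up_mem (Hs_ne hh)⟩) fun _ a => P_le_Hs a.1 a.2

end Vale.Agent.P092AG
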