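import Vale.Agent.P092AL.Cell
import Vale.Agent.P092AG.Lin

/-!
P092, group side (helper72): the unipotent radicals have polynomial charts.
-/

set_option linter.all false

open Matrix Finset Filter Topology Asymptotics
open scoped Matrix.Norms.Elementwise

namespace Vale.Agent.P092AG

open Vale.Agent.P092AL (Fl Pp Un Lv)
open Vale.Agent.P092CQ

variable {n : ℕ} {k : Type} [NontriviallyNormedField k] {G : Subgroup (GL (Fin n) k)}
  {𝔤 : Submodule k (Mt n k)} {X : Mt n k} {y y' : Fin n → ℤ} {u u' : GL (Fin n) k}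

theorem pow_dvd_of_bigO {ι : Type} {l : Filter ι} [l.NeBot] {t : ι → kˣ}
    (ht : Tendsto (fun j => (t j : k)) l (𝓝 0)) (N : ℕ) (q : Polynomial k)
    (h : (fun j => q.eval (t j : k)) =O[l] fun j => (t j : k) ^ N) : Polynomial.X ^ N ∣ q := by
  induction N with
  | zero => simp
  | succ N ih =>
    obtain ⟨q, rfl⟩ := ih (h.trans (by
      simpa only [pow_succ, mul_one] using (isBigO_refl (fun j => (t j : k) ^ N) l).mul (ht.isBigO_one k)))
    refine pow_succ (Polynomial.X : Polynomial k) N ▸ mul_dvd_mul_left _ (Polynomial.X_dvd_iff.2 ?_)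
    have h1 := h.mul (isBigO_refl (fun j => ((t j : k) ^ N)⁻¹) l)
    have h2 : ∀ j (c : k), (t j : k) ^ N * c * ((t j : k) ^ N)⁻¹ = c := fun j c => by
      rw [mul_right_comm, mul_inv_cancel₀ (pow_ne_zero _ (t j).ne_zero), one_mul]
    simp only [Polynomial.eval_mul, Polynomial.eval_pow, Polynomial.eval_X, pow_succ, h2] at h1
    rw [Polynomial.coeff_zero_eq_eval_zero]
    exact tendsto_nhds_unique ((q.continuous.tendsto 0).comp ht) (h1.trans_tendsto ht)

theorem taylor {σ : Mt n k → Mt n k} (h : AnalyticAt k σ 0) (N : ℕ) : ∃ P : Mt n k → Mt n k,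
    (∀ i j, PF fun X => P X i j) ∧ (fun X => σ X - P X) =O[𝓝 0] fun X => ‖X‖ ^ N := by
  obtain ⟨p, hp⟩ := h
  refine ⟨p.partialSum N, fun i j => ?_,
    (hp.isBigO_sub_partialSum_pow N).congr_left fun X => by rw [zero_add]⟩
  have e : ∀ m (X : Mt n k), p m (fun _ => X) = ∑ r : Fin m → Fin n × Fin n,
      (∏ l, X (r l).1 (r l).2) • p m fun l => single (r l).1 (r l).2 1 := fun m X => by
    have : X = ∑ a : Fin n × Fin n, X a.1 a.2 • single a.1 a.2 (1 : k) := by
      conv_lhs => rw [matrix_eq_sum_single X, ← Fintype.sum_prod_type']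
      simp
    conv_lhs => rw [this]
    rw [ContinuousMultilinearMap.map_sum]
    exact sum_congr rfl fun r _ => (p m).map_smul_univ _ _
  simp only [FormalMultilinearSeries.partialSum, e, Matrix.sum_apply, Matrix.smul_apply, smul_eq_mul]
  exact PF.sum _ fun m _ => PF.sum _ fun r _ => (PF.prod _ fun l _ => PF.entry _ _).mul (PF.const _)

theorem PF.sc {F : Mt n k → k} (h : PF F) (y : Fin n → ℤ) :
    ∃ q : Polynomial (Pl n k), ∀ X t, F (sc y t X) = (q.map (ev X)).eval t := by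
  obtain ⟨p, hp⟩ := h
  simp only [hp]
  clear hp
  induction p using MvPolynomial.induction_on with
  | C c => exact ⟨Polynomial.C (MvPolynomial.C c), fun X t => by simp [ev_C]⟩
  | add p q hp hq =>
    obtain ⟨a, ha⟩ := hp
    obtain ⟨b, hb⟩ := hq
    exact ⟨a + b, fun X t => by simp [ha, hb]⟩
  | mul_X p ij hp =>
    obtain ⟨i, j⟩ := ij
    obtain ⟨a, ha⟩ := hp
    exact ⟨a * (Polynomial.X ^ (y i - y j).toNat * Polynomial.C (MvPolynomial.X (i, j))), fun X t => by
      rw [map_mul, ha, ev_X]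
      simp only [Polynomial.map_mul, Polynomial.map_pow, Polynomial.map_X, Polynomial.map_C,
        Polynomial.eval_mul, Polynomial.eval_pow, Polynomial.eval_X, Polynomial.eval_C, ev_X]
      rfl⟩

theorem Ad_sc (hX : Pp y X) (t : kˣ) : Ad (tor y t) X = sc y (t : k) X := by
  ext i j
  rw [Ad_apply, tor_conj, sc, of_apply]
  by_cases e : X i j = 0
  · rw [e, mul_zero, mul_zero]
  · have := hX i j e
    rw [← zpow_natCast, Int.toNat_of_nonneg (by omega)]

theorem Ad_bigO {t : kˣ} (ht : ‖(t : k)‖ < 1) (hX : Fl y 1 X) :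
    (fun m : ℕ => Ad (tor y (t ^ m)) X) =O[atTop] fun m => ((t ^ m : kˣ) : k) :=
  IsBigO.of_bound ‖X‖ (.of_forall fun m =>
    (norm_le_iff (by positivity)).2 fun i j => by
      rw [Ad_apply, tor_conj, norm_mul, mul_comm]
      by_cases e : X i j = 0
      · rw [e, norm_zero, zero_mul]; positivity
      · have := hX i j e
        refine mul_le_mul (norm_entry_le_entrywise_sup_norm X) ?_ (norm_nonneg _) (norm_nonneg _)
        rw [norm_zpow]
        exact (zpow_le_zpow_right_of_le_one₀ (norm_pos_iff.2 (t ^ m).ne_zero)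
          (by simpa using pow_le_one₀ (norm_nonneg _) ht.le) (show 1 ≤ y i - y j by omega)).trans_eq
          (zpow_one _))

theorem Ad_inj (g : GL (Fin n) k) : Function.Injective (Ad g) := fun a b e => by
  simpa only [← Module.End.mul_apply, ← map_mul, inv_mul_cancel, map_one, Module.End.one_apply]
    using congrArg (Ad g⁻¹) e

theorem conj_U (hy : y' ∈ Y G) (hu : u ∈ G ⊓ Ugl y) (t : kˣ) : tor y' t * u * (tor y' t)⁻¹ ∈ G ⊓ Ugl y :=
  ⟨tor_conj_mem hy hu.1 t, conj_mem_Ugl (Lgl_le_Pgl y (tor_mem_Lgl y' y t)) hu.2⟩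

variable [CompleteSpace k]

namespace EC

variable {π : Module.End k (Mt n k)} {θ σ : Mt n k → Mt n k} (h : EC G 𝔤 π θ σ) (hy : y ∈ Y G)
include h hy

theorem ev_sig {t : kˣ} (ht : ‖(t : k)‖ < 1) (hu : u ∈ G ⊓ Ugl y) :
    ∀ᶠ m : ℕ in atTop, σ (Ad (tor y (t ^ m)) (π (u - 1))) = Ad (tor y (t ^ m)) u :=
  ((tend_Ad' ht (isU_un.1 hu.2)).eventually h.left).mono fun m a => by
    rw [← h.pi_Ad hy]
    exact a ⟨_, tor_conj_mem hy hu.1 _, rfl⟩

theorem inj (hu : u ∈ G ⊓ Ugl y) (hu' : u' ∈ G ⊓ Ugl y) (e : π (u - 1) = π (u' - 1)) : u = u' := by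
  obtain ⟨t, ht⟩ := exists_small k
  obtain ⟨m, a, b⟩ := ((h.ev_sig hy ht hu).and (h.ev_sig hy ht hu')).exists
  exact Units.ext (Ad_inj _ (a.symm.trans (e ▸ b)))

theorem surj (hX : X ∈ 𝔤) (hf : Fl y 1 X) : ∃ u ∈ G ⊓ Ugl y, π ((u : Mt n k) - 1) = X := by
  obtain ⟨t, ht⟩ := exists_small k
  obtain ⟨m, a, b⟩ := ((tend_Ad ht hf).eventually (h.sig.and (h.un hy))).exists
  have c := Ad_mem h.chart (hy (t ^ m)) hX
  obtain ⟨⟨u, hu, e⟩, e'⟩ := a c
  have d : Fl y 1 (Ad (tor y (t ^ m)) X) := fun i j c => hf i j (by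
    rw [Ad_apply, tor_conj] at c
    exact right_ne_zero_of_mul c)
  refine ⟨_, conj_U (neg_mem hy) ⟨hu, isU_un.2 (e ▸ b c d)⟩ (t ^ m), ?_⟩
  rw [← Ad_coe, h.pi_Ad (neg_mem hy), e, e', tor_neg, ← Module.End.mul_apply, ← map_mul,
    inv_mul_cancel, map_one, Module.End.one_apply]

/-- **the unipotent radical has a polynomial chart** -/
theorem poly : ∃ Ψ : Mt n k → Mt n k, (∀ i j, PF fun X => Ψ X i j) ∧
    ∀ u ∈ G ⊓ Ugl y, Ψ (π ((u : Mt n k) - 1)) = u := by
  obtain ⟨t, ht⟩ := exists_small k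
  have h0 : Tendsto (fun m : ℕ => ((t ^ m : kˣ) : k)) atTop (𝓝 0) := by
    simpa using tendsto_pow_atTop_nhds_zero_of_norm_lt_one ht
  have key : ∀ i j, ∃ p : Pl n k, ∀ u ∈ G ⊓ Ugl y, ev (π ((u : Mt n k) - 1)) p = (u : Mt n k) i j := by
    intro i j
    obtain ⟨P, h1, h2⟩ := taylor h.an' ((y i - y j).toNat + 1)
    obtain ⟨q, hq⟩ := (h1 i j).sc y
    refine ⟨q.coeff (y i - y j).toNat, fun u hu => ?_⟩
    have h3 := h.fl hy (isU_un.1 hu.2)
    have h4 := (h2.comp_tendsto (tend_Ad ht h3)).trans ((Ad_bigO ht h3).norm_left.pow _)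
    have h5 := pow_dvd_of_bigO h0 ((y i - y j).toNat + 1) (Polynomial.C ((u : Mt n k) i j) *
      Polynomial.X ^ (y i - y j).toNat - q.map (ev (π ((u : Mt n k) - 1))))
      (.trans (.of_bound' ((h.ev_sig hy ht hu).mono fun m a => ?_)) h4)
    · have := Polynomial.X_pow_dvd_iff.1 h5 _ (Nat.lt_succ_self _)
      rw [Polynomial.coeff_sub, Polynomial.coeff_C_mul_X_pow, if_pos rfl, Polynomial.coeff_map] at this
      exact (sub_eq_zero.1 this).symm
    · refine le_of_eq_of_le ?_ (norm_entry_le_entrywise_sup_norm _ (i := i) (j := j))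
      rw [Function.comp, a, Ad_sc (h3.mono zero_le_one), Ad_sc (isU_un.1 hu.2).pp, Matrix.sub_apply,
        hq, Polynomial.eval_sub, Polynomial.eval_mul, Polynomial.eval_C, Polynomial.eval_pow,
        Polynomial.eval_X, mul_comm]
      rfl
  choose p hp using key
  exact ⟨fun X => of fun i j => ev X (p i j), fun i j => PF.of _, fun u hu =>
    Matrix.ext fun i j => hp i j u hu⟩

theorem mem_L (hy' : y' ∈ Y G) (hu : u ∈ G ⊓ Ugl y) (e : Lv y' (π ((u : Mt n k) - 1))) : u ∈ Lgl y' :=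
  mem_Lgl_of_comm fun t => mul_inv_eq_iff_eq_mul.1 (h.inj hy (conj_U hy' hu t) hu (by
    rw [← Ad_coe, h.pi_Ad hy']
    ext i j
    rw [Ad_apply, tor_conj]
    by_cases c : π ((u : Mt n k) - 1) i j = 0
    · rw [c, mul_zero]
    · rw [e i j c, sub_self, zpow_zero, one_mul]))

/-- the support of the element attached to a weight vector -/
theorem supp {α : Y G →+ ℤ} (hu : u ∈ G ⊓ Ugl y) (e : π ((u : Mt n k) - 1) ∈ WS G (· = α))
    {i j : Fin n} (h0 : (u : Mt n k) i j ≠ 0) : ∃ m : ℕ, rt G i j = m • α := by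
  obtain ⟨Ψ, h1, h2⟩ := h.poly hy
  obtain ⟨q, hq⟩ := (h1 i j).pt (T := fun c => c • π ((u : Mt n k) - 1)) fun a b => by
    simpa using (PT.pow 1).mul (PT.const (π ((u : Mt n k) - 1) a b))
  have h3 : ∀ (z : Y G) (t : kˣ), q.eval ((t : k) ^ α z) = (t : k) ^ rt G i j z * (u : Mt n k) i j :=
    fun z t => by
    rw [← hq, rt_apply, ← tor_conj, ← Units.val_mul, ← Units.val_mul, ← h2 _ (conj_U z.2 hu t), ← Ad_coe,
      h.pi_Ad z.2, Ad_tor]
    refine congrArg (Ψ · i j) (Matrix.ext fun a b => ?_)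
    rw [sch_apply, Matrix.smul_apply, smul_eq_mul]
    by_cases c : π ((u : Mt n k) - 1) a b = 0
    · rw [c, mul_zero, mul_zero]
    · rw [show rt G a b = α from e a b c]
  classical
  by_contra c
  push Not at c
  obtain ⟨z, hz⟩ := exists_gen (range (q.natDegree + 1)) (fun m => m • α - rt G i j)
    fun m _ e => c m (sub_eq_zero.1 e).symm
  let v : ℤ → k := fun a => ∑ m ∈ range (q.natDegree + 1) with (m : ℕ) * α z = a, q.coeff m
  let s := insert (rt G i j z) ((range (q.natDegree + 1)).image fun m : ℕ => m * α z)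
  have h4 := laurent (k := k) (⊥ : Submodule k k) s
    (fun a => v a - if a = rt G i j z then (u : Mt n k) i j else 0) (fun t => by
      simp only [Algebra.algebraMap_self, RingHom.id_apply, smul_eq_mul, mul_sub, sum_sub_distrib, mul_ite,
        mul_zero, sum_ite_eq', s, mem_insert_self, if_true, Submodule.mem_bot, sub_eq_zero]
      rw [← h3, Polynomial.eval_eq_sum_range, ← sum_fiberwise_of_maps_to (g := fun m : ℕ => m * α z)
        fun m hm => mem_insert_of_mem (mem_image_of_mem _ hm)]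
      refine sum_congr rfl fun a _ => (mul_sum _ _ _).trans (sum_congr rfl fun m hm => ?_)
      rw [← (mem_filter.1 hm).2, mul_comm, mul_comm (m : ℤ), _root_.zpow_mul, zpow_natCast])
    _ (mem_insert_self _ _)
  rw [if_pos rfl, Submodule.mem_bot, sub_eq_zero] at h4
  refine h0 (h4.symm.trans (sum_eq_zero fun m hm => absurd ?_ (hz m (mem_filter.1 hm).1)))
  simpa [sub_eq_zero] using (mem_filter.1 hm).2

end EC

end Vale.Agent.P092AG
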