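import Vale.Agent.P092AL.Luna
import Vale.Agent.P092AG.C4
import Vale.Agent.P092RT.Root

/-!
P092, group side (helper72): the rank one subgroups, reflections, the root system.
-/

set_option linter.all false

open Matrix Finset Filter Topology
open scoped Matrix.Norms.Elementwise

namespace Vale.Agent.P092AG

open Vale.Agent.P092AL (Fl Pp Un Lv)
open Vale.Agent.P092CQ

variable {n : ℕ} {k : Type} [NontriviallyNormedField k] {G : Subgroup (GL (Fin n) k)}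
  {𝔤 : Submodule k (Mt n k)} {y y' s : Fin n → ℤ} {u m : GL (Fin n) k}

theorem reg_levi (h : Reg G y) : Reg (G ⊓ Lgl s) y :=
  ⟨Y_levi.ge h.1, fun i j e z hz => h.2 i j e z (Y_levi.le hz)⟩

theorem red_of [ProperSpace k] (K : Type) [NormedField K] [NormedAlgebra k K] [IsAlgClosed K]
    (hn : Nice G 𝔤) (hs : Simp G) (hm : Max K G) : Red G 𝔤 := by
  have key : ∀ {G : Subgroup (GL (Fin n) k)} {𝔤}, Nice G 𝔤 → Max K G → ∀ y, Reg G y → Cov G y :=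
    fun {G} _ hn hm y hy => by
    obtain ⟨T, h1, h2, h3⟩ := Nm_fin G
    obtain ⟨R, hR⟩ := cov hn hn.cell hm hy h3
    exact ⟨h1.toFinset, R, fun e he => h2 (h1.mem_toFinset.1 he), fun g hg =>
      (hR g hg).imp fun r a => ⟨h1.mem_toFinset.2 a.1, a.2⟩⟩
  refine ⟨hn, hs, key hn hm, fun s h y hy => key (hn.levi h) (fun z hz => ?_) y (reg_levi hy)⟩
  have := hm z (mem_Zc.2 ⟨(mem_Zc.1 hz).1.1, fun a ha => (mem_Zc.1 hz).2 a (Y_levi.ge ha)⟩)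
  simpa only [Sim, Y_levi] using this

theorem tw_perm (hm : m ∈ Nm G) {σ : Equiv.Perm (Fin n)} (hσ : ∀ j, (m : Mt n k) (σ j) j ≠ 0)
    (hy : y ∈ Y G) : y ∘ σ ∈ Y G ∧ Tw m y (y ∘ σ) := by
  obtain ⟨y', h1, h2⟩ := tw_left hm hy
  rw [show y ∘ σ = y' from funext fun j => h2.wt (hσ j)]
  exact ⟨h1, h2⟩

/-- `m` represents the reflection in `α` -/
structure Rf (G : Subgroup (GL (Fin n) k)) (α : Y G →+ ℤ) (m : GL (Fin n) k) (σ : Equiv.Perm (Fin n)) :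
    Prop where
  nm : m ∈ Nm G
  ne : ∀ j, (m : Mt n k) (σ j) j ≠ 0
  fix : ∀ z : Y G, α z = 0 → z.1 ∘ σ = z.1
  neg : ∀ z : Y G, α ⟨z.1 ∘ σ, (tw_perm nm ne z.2).1⟩ = -α z

theorem rf_of {α : Y G →+ ℤ} {s y : Y G} (hs : Gen G α s) (hα : α y ≠ 0) (hm : m ∈ Nm G)
    (h1 : m ∈ Lgl s.1) (h2 : m ∉ Lgl y.1) : ∃ σ, Rf G α m σ := by
  obtain ⟨σ, hσ⟩ := perm_of_gl m
  have h3 : ∀ z : Y G, α z = 0 → z.1 ∘ σ = z.1 := fun z hz => funext fun j =>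
    hs.2 _ _ (by_contra fun c => hσ j (h1 _ _ c)) z hz
  let w : Y G →+ Y G := AddMonoidHom.mk' (fun z => ⟨z.1 ∘ σ, (tw_perm hm hσ z.2).1⟩) fun _ _ => rfl
  have h4 : ∀ a b : Y G, (w a).1 ⬝ᵥ (w b).1 = a.1 ⬝ᵥ b.1 := fun a b => comp_equiv_dotProduct_comp_equiv _ _ σ
  have h5 : ∀ z, α z = 0 → w z = z := fun z hz => Subtype.ext (h3 z hz)
  have h6 : α (w y + y) = 0 := by
    have a := h4 y (α (w y - y) • (w y + y) - α (w y + y) • (w y - y))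
    rw [h5 (_ - _) (by rw [map_sub, map_zsmul, map_zsmul, smul_eq_mul, smul_eq_mul, mul_comm, sub_self]),
      ← sub_eq_zero, ← sub_dotProduct] at a
    have b : ((w y).1 - y.1) ⬝ᵥ ((w y).1 + y.1) = 0 := by
      rw [sub_dotProduct, dotProduct_add, dotProduct_add, h4, dotProduct_comm y.1 (w y).1]; ring
    simp only [AddSubgroup.coe_sub, AddSubgroup.coe_zsmul, AddSubgroup.coe_add] at a
    rw [dotProduct_sub, dotProduct_smul, dotProduct_smul, b, smul_zero, zero_sub, neg_eq_zero,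
      smul_eq_mul, mul_eq_zero, dotProduct_self_eq_zero, sub_eq_zero] at a
    exact a.resolve_right fun c => h2 (mem_Lgl_of_comm fun t => by
      have := (tw_perm hm hσ y.2).2 t
      rwa [show y.1 ∘ σ = y.1 from c] at this)
  refine ⟨σ, hm, hσ, h3, fun z => mul_left_cancel₀ hα ?_⟩
  have := congrArg α (h5 (α y • z - α z • y) (by simp [mul_comm]))
  simp only [map_sub, map_zsmul, smul_eq_mul, map_add] at this h6
  show α y * α (w z) = _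
  linear_combination this + α z * h6

theorem Tw.mem_L (h : Tw m y y') {v v' : GL (Fin n) k} (hv : v ∈ Ugl y) (hv' : v' ∈ Ugl (-y'))
    {c : Fin n → ℤ} (hc : v * m * v' ∈ Lgl c) : m ∈ Lgl c := mem_Lgl_of_comm fun t => by
  have k : ∀ t, mdG (-y') (m⁻¹ * (v * m * v')) = m⁻¹ * tor c t * m⁻¹⁻¹ * (tor c t)⁻¹ := fun t => by
    rw [← (lmu_eq (y := -y') ((neg_neg y').symm ▸ h.inv.U
        (conj_U (y' := c) (G := ⊤) (fun _ => trivial) ⟨trivial, hv⟩ t).2)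
      (mul_mem ((Lgl_neg y').ge (h.inv.L (tor_mem_Lgl c y t))) (inv_mem (tor_mem_Lgl c _ t)))
      (conj_U (y' := c) (G := ⊤) (fun _ => trivial) ⟨trivial, hv'⟩ t).2).2.1]
    congr 1
    rw [← mul_inv_cancel_right (v * m * v') (tor c t), ← comm_tor hc]
    group
  have := (k t).symm.trans (k 1)
  rwa [tor_one, mul_one, inv_one, mul_one, inv_inv, inv_mul_cancel, mul_inv_eq_one, mul_assoc,
    inv_mul_eq_iff_eq_mul] at this

variable [ProperSpace k]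

/-- **RGD2** -/
theorem Red.rgd (H : Red G 𝔤) {α : Y G →+ ℤ} {s y : Y G} (hs : Gen G α s) (hy : Reg G y.1) (h0 : 0 < α y)
    (hα : ∀ z : Y G, Reg G z → α z ≠ 0) (hu : u ∈ G ⊓ Lgl s.1 ⊓ Ugl (-y.1)) (h1 : u ≠ 1) :
    ∃ v ∈ G ⊓ Lgl s.1 ⊓ Ugl y.1, ∃ v' ∈ G ⊓ Lgl s.1 ⊓ Ugl y.1, ∃ σ, Rf G α (v * u * v') σ ∧
      ∀ e, u ∈ Lgl e → v * u * v' ∈ Lgl e := by
  have hn := H.nice.levi s.2
  have hy' : y.1 ∈ Y (G ⊓ Lgl s.1) := Y_levi.ge y.2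
  obtain ⟨e, h2, h3, h4⟩ : ∃ e ∈ Nm (G ⊓ Lgl s.1), e ∉ Lgl y.1 ∧
      fy y.1 ((e * u : GL (Fin n) k) : Mt n k) ≠ 0 := by
    obtain ⟨E, R, e1, e2⟩ := H.cov' _ s.2 _ hy
    obtain ⟨ϖ, a1, -⟩ := exists_unif k
    by_contra c
    push Not at c
    refine h1 (H.ray s.2 hy (hs.sg' h0 hα) ⟨⟨hu.1, fun w hw => ?_⟩, hu.2⟩)
    have := (pt_sc y.1 (-y.1) w u).eq_of_bdd a1 (C := ∑ e ∈ E, |R w| * ‖fy y.1 (e : Mt n k)‖)
      (.of_forall fun j => by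
        obtain ⟨e, a, b⟩ := e2 _ (conj_U (neg_mem hy') hu (ϖ ^ j)⁻¹).1
        rw [← sc_eq (Ugl_le_Pgl _ hu.2), ← Units.val_mul]
        refine (b w hw).trans (le_trans ?_ (single_le_sum (fun _ _ => by positivity) a))
        refine mul_le_mul (le_abs_self _) ?_ (norm_nonneg _) (abs_nonneg _)
        by_cases d : e ∈ Lgl y.1
        · rw [Units.val_mul, fy_left (Lgl_le_Pgl_neg _ d), fy_U (conj_U (neg_mem hy') hu _).2, mul_one]
        · rw [← mul_assoc, Units.val_mul, fy_right (inv_mem (Lgl_le_Pgl _ (tor_mem_Lgl _ _ _))),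
            fy_Nm_tor (e1 e a) (neg_mem hy'), c e (e1 e a) d, mul_zero, zero_mul, norm_zero]
          exact norm_nonneg _) 1 0
    rwa [sc_one, sc_zero hu.2, mul_one, ← mul_one (fy _ (w : Mt n k)), ← fy_U (y := y.1) hu.2] at this
  have h5 := hn.cell _ hy' _ (mul_mem h2.1 hu.1) h4
  have h6 := hn.cell.md hy' (mul_mem h2.1 hu.1) h4
  have h7 := mdG_mem h4
  set m := e⁻¹ * mdG y.1 (e * u)
  have h8 : m ∈ Nm G := mul_mem (inv_mem (Nm_levi h2)) (Zc_le_Nm (hy.zc ▸ ⟨h6.1, h7⟩))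
  obtain ⟨σ, hσ⟩ := rf_of hs h0.ne' h8 (mul_mem (inv_mem h2.1.2) h6.2) fun c =>
    h3 (by simpa [m] using mul_mem h7 (inv_mem c))
  have h9 := tw_perm h8 hσ.ne y.2
  have k1 : Sg s.1 y.1 (-(y.1 ∘ σ)) := hs.sg (z := -⟨_, h9.1⟩) h0 (by rw [map_neg, hσ.neg]; omega)
  have k2 : ∀ x ∈ Lgl s.1, x ∈ Ugl (-y.1) → m * x * m⁻¹ ∈ Ugl y.1 := fun x a b =>
    h9.2.U (by simpa using k1.neg.U a b)
  have k3 : e⁻¹ * loG y.1 (e * u) * e ∈ G ⊓ Lgl s.1 ⊓ Ugl y.1 :=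
    ⟨(G ⊓ Lgl s.1).mul_mem (mul_mem (inv_mem h2.1) h5.1) h2.1, by
      have := k2 _ (mul_mem (mul_mem (inv_mem h6.2) h5.1.2) h6.2) (by
        simpa using conj_mem_Ugl (inv_mem (Lgl_le_Pgl_neg _ h7)) (loG_mem y.1 (e * u)))
      rwa [show m * ((mdG y.1 (e * u))⁻¹ * loG y.1 (e * u) * mdG y.1 (e * u)) * m⁻¹ =
        e⁻¹ * loG y.1 (e * u) * e by simp only [m]; group] at this⟩
  have k4 : upG y.1 (e * u) ∈ G ⊓ Lgl s.1 ⊓ Ugl y.1 := ⟨h5.2, upG_mem _ _⟩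
  have k5 : (e⁻¹ * loG y.1 (e * u) * e)⁻¹ * u * (upG y.1 (e * u))⁻¹ = m := by simp only [m, mdG]; group
  refine ⟨_, inv_mem k3, _, inv_mem k4, σ, k5 ▸ hσ, fun c hc => k5 ▸ h9.2.mem_L k3.2
    (k1.U k4.1.2 k4.2) ?_⟩
  rwa [← k5, ← mul_assoc, mul_inv_cancel_left, inv_mul_cancel_right]

theorem Red.rgd' (H : Red G 𝔤) {α : Y G →+ ℤ} {s y : Y G} (hs : Gen G α s) (hy : Reg G y.1)
    (hα : ∀ z : Y G, Reg G z → α z ≠ 0) (hu : u ∈ G ⊓ Lgl s.1 ⊓ Ugl y.1) (h1 : u ≠ 1) :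
    ∃ v ∈ G ⊓ Lgl s.1 ⊓ Ugl (-y.1), ∃ v' ∈ G ⊓ Lgl s.1 ⊓ Ugl (-y.1), ∃ σ, Rf G α (v * u * v') σ ∧
      ∀ e, u ∈ Lgl e → v * u * v' ∈ Lgl e := by
  have hu' : u ∈ G ⊓ Lgl s.1 ⊓ Ugl (-(-y).1) := ⟨hu.1, (neg_neg y.1).symm ▸ hu.2⟩
  rcases (hα y hy).lt_or_gt with c | c
  · exact H.rgd (y := -y) hs hy.neg (by rwa [map_neg, neg_pos]) hα hu' h1
  · obtain ⟨v, a, v', b, σ, d, e⟩ := H.rgd (α := -α) (y := -y)
      ⟨neg_eq_zero.2 hs.1, fun i j e z hz => hs.2 i j e z (neg_eq_zero.1 hz)⟩ hy.neg (by simpa using c)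
      (fun z hz => neg_ne_zero.2 (hα z hz)) hu' h1
    exact ⟨v, a, v', b, σ, ⟨d.nm, d.ne, fun z hz => d.fix z (neg_eq_zero.2 hz),
      fun z => neg_injective (d.neg z)⟩, e⟩

omit [ProperSpace k] in
theorem Rt_rt {α : Y G →+ ℤ} (h : α ∈ Rt G 𝔤) : ∃ i j, rt G i j = α := by
  obtain ⟨-, X, -, a, b⟩ := h
  by_contra c
  exact a (Matrix.ext fun i j => by_contra fun d => c ⟨i, j, b i j d⟩)

omit [ProperSpace k] in
theorem Rt_fin : (Rt G 𝔤).Finite :=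
  (Set.finite_range fun p : Fin n × Fin n => rt G p.1 p.2).subset fun _ h =>
    let ⟨i, j, e⟩ := Rt_rt h; ⟨(i, j), e⟩

omit [ProperSpace k] in
theorem Rt_reg {α : Y G →+ ℤ} (h : α ∈ Rt G 𝔤) (z : Y G) (hz : Reg G z) : α z ≠ 0 := by
  obtain ⟨i, j, rfl⟩ := Rt_rt h
  exact rt_ne h.1 z hz

theorem Chart.mem_Rt (h : Chart G 𝔤) {X : Mt n k} (hX : X ∈ 𝔤) {i j : Fin n} (e : X i j ≠ 0)
    (h0 : rt G i j ≠ 0) : rt G i j ∈ Rt G 𝔤 :=
  ⟨h0, _, h.msk_mem (· = rt G i j) hX, fun c => e (by simpa [msk_apply] using congrFun (congrFun c i) j),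
    P092AG.msk_mem⟩

theorem Chart.root_elt (h : Chart G 𝔤) {α : Y G →+ ℤ} (hα : α ∈ Rt G 𝔤) {y : Y G} (hy : 0 < α y) :
    ∃ u ∈ G ⊓ Ugl y.1, u ≠ 1 ∧ ∀ i j, (u : Mt n k) i j ≠ 0 → ∃ m : ℕ, rt G i j = m • α := by
  obtain ⟨π, θ, σ, e⟩ := h.ec
  obtain ⟨-, X, a, b, c⟩ := hα
  obtain ⟨u, d, rfl⟩ := e.surj y.2 a fun i j f => by
    rw [← show rt G i j = α from c i j f, rt_apply] at hy
    omega
  exact ⟨u, d, fun f => b (by rw [f, Units.val_one, sub_self, map_zero]), fun i j => e.supp y.2 d c⟩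

theorem Red.refl (H : Red G 𝔤) {α : Y G →+ ℤ} (hα : α ∈ Rt G 𝔤) : P092RT.Refl (Rt G 𝔤) α := by
  classical
  obtain ⟨y, h1, h2⟩ : ∃ y : Y G, Reg G y ∧ 0 < α y := by
    obtain ⟨y, hy⟩ := exists_reg G
    rcases (Rt_reg hα ⟨y, hy.1⟩ hy).lt_or_gt with c | c
    · exact ⟨-⟨y, hy.1⟩, hy.neg, by rwa [map_neg, neg_pos]⟩
    · exact ⟨_, hy, c⟩
  obtain ⟨u, h3, h4, h5⟩ := H.nice.chart.root_elt hα h2
  obtain ⟨s, hs⟩ := exists_Gen α
  obtain ⟨v, -, v', -, σ, h6, h7⟩ := H.rgd' hs h1 (Rt_reg hα) ⟨⟨h3.1, isL_lv.2 fun i j e => by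
    obtain ⟨m, hm⟩ := h5 i j e
    exact sub_eq_zero.1 ((DFunLike.congr_fun hm s).trans (by simp [hs.1]))⟩, h3.2⟩ h4
  have h8 : ∀ j, ∃ m : ℤ, ∀ z : Y G, z.1 (σ j) - z.1 j = m * α z := fun j => by
    have := isL_lv.1 (h7 (fun i => if ∃ m : ℤ, rt G i j = m • α then 1 else 0) (isL_lv.2 fun a b e => by
      obtain ⟨m, hm⟩ := h5 a b e
      refine if_congr ⟨fun ⟨l, c⟩ => ⟨l - m, ?_⟩, fun ⟨l, c⟩ => ⟨m + l, ?_⟩⟩ rfl rfl
      · rw [sub_smul, ← c, natCast_zsmul, ← hm, ← rt_add a b j, add_sub_cancel_left]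
      · rw [add_smul, ← c, natCast_zsmul, ← hm, rt_add])) _ _ (h6.ne j)
    rw [if_pos (show ∃ m : ℤ, rt G j j = m • α from ⟨0, by rw [rt_self, zero_smul]⟩),
      ite_eq_left_iff, imp_iff_not zero_ne_one, not_not] at this
    exact this.imp fun m c z => DFunLike.congr_fun c z
  refine ⟨σ, fun z hz => (tw_perm h6.nm h6.ne hz).1, h6.fix, h6.neg, ?_, h8, fun c hc => ?_⟩
  · rintro c ⟨a, X, b, d, e⟩
    refine ⟨c.comp (AddMonoidHom.mk' (fun z => ⟨z.1 ∘ σ, (tw_perm h6.nm h6.ne z.2).1⟩) fun _ _ => rfl),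
      ⟨fun f => a (AddMonoidHom.ext fun z => ?_), _, Ad_mem H.nice.chart h6.nm.1 b,
        fun f => d (Ad_inj _ (f.trans (map_zero _).symm)), fun i j f => AddMonoidHom.ext fun z => ?_⟩,
      fun _ => rfl⟩
    · obtain ⟨z', p, q⟩ := tw_right h6.nm z.2
      rw [show z = ⟨z' ∘ σ, (tw_perm h6.nm h6.ne p).1⟩ from Subtype.ext (funext fun j => (q.wt (h6.ne j)).symm)]
      exact DFunLike.congr_fun f ⟨z', p⟩
    · have q := tw_perm h6.nm h6.ne z.2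
      have p : ∀ a b, X a b ≠ 0 → (z.1 ∘ σ) a - (z.1 ∘ σ) b = c ⟨_, q.1⟩ := fun a b g =>
        DFunLike.congr_fun (e a b g) ⟨_, q.1⟩
      have r1 := q.2.fl (j := c ⟨_, q.1⟩) (fun a b g => by have := p a b g; omega) i j f
      have r2 := q.2.neg.fl (j := -c ⟨_, q.1⟩) (fun a b g => by
        have := p a b g; simp only [Pi.neg_apply]; omega) i j f
      simp only [Pi.neg_apply] at r2
      show z.1 i - z.1 j = c ⟨_, q.1⟩
      omega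
  · obtain ⟨a, b, rfl⟩ := Rt_rt hc
    obtain ⟨m, hm⟩ := h8 a
    obtain ⟨m', hm'⟩ := h8 b
    exact ⟨m - m', fun z => by
      simp only [rt_apply, Function.comp]; linear_combination hm z - hm' z⟩

theorem Chart.U_le_L (h : Chart G 𝔤) {y z : Y G} (e : ∀ a ∈ Rt G 𝔤, a y = 0 ∨ a z = 0)
    (hu : u ∈ G ⊓ Ugl y.1) : u ∈ Lgl z.1 := by
  obtain ⟨π, θ, σ, c⟩ := h.ec
  refine c.mem_L y.2 z.2 hu fun i j f => ?_
  have : rt G i j y ≠ 0 := by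
    have := c.fl y.2 (isU_un.1 hu.2) i j f
    rw [rt_apply]
    omega
  exact sub_eq_zero.1 ((e _ (h.mem_Rt (c.mem _) f fun d => this (by rw [d]; rfl))).resolve_left this)

omit [ProperSpace k] in
theorem le_L_of_van {N : Subgroup (GL (Fin n) k)} (h : van (N : Set (GL (Fin n) k)) ≤ van (G : Set _))
    (e : N ≤ Lgl y) : G ≤ Lgl y := fun g hg i j c =>
  (ev_X _ i j).symm.trans (h (x := MvPolynomial.X (i, j)) (fun x hx => (ev_X _ i j).trans (e hx i j c)) g hg)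

theorem Simp.not_le_L (hs : Simp G) (hn : Nice G 𝔤) (hy : y ∈ Y G) (e : G ≤ Lgl y) : y = 0 := by
  by_contra h0
  obtain ⟨ϖ, h1, -⟩ := exists_unif k
  let N := Subgroup.zpowers (tor y ϖ)
  rcases hs.norm N (Subgroup.zpowers_le.2 (hy ϖ)) (.of_forall fun g hg x ⟨m, hm⟩ => ⟨m, by
    rw [← hm, ← conj_zpow, ← comm_tor (e hg), mul_inv_cancel_right]⟩) with c | c
  · obtain ⟨m, a, b⟩ := (isOfFinOrder_iff_pow_eq_one).1 (finite_zpowers.1 c)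
    refine fy_tor_ne (t := ϖ ^ m) (by simpa using pow_lt_one₀ (norm_nonneg _) h1 a.ne')
      (hn.det1 _ (hy _)) h0 ?_
    rw [show tor y (ϖ ^ m) = tor y ϖ ^ m from
      map_pow (MonoidHom.mk' (tor y) (tor_mul y)) ϖ m, b, Units.val_one, fy_one]
  · obtain ⟨g, hg, g', hg', d⟩ := hs.ncomm
    have := le_L_of_van (y := fun i => (i : ℕ)) c (Subgroup.zpowers_le.2 (tor_mem_Lgl _ _ _))
    have f : ∀ g ∈ G, (g : Mt n k).IsDiag := fun g hg i j a => this hg i j fun b =>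
      a (Fin.ext (Int.natCast_inj.1 b))
    refine d (Units.ext ?_)
    rw [Units.val_mul, Units.val_mul, ← (f g hg).diagonal_diag, ← (f g' hg').diagonal_diag,
      diagonal_mul_diagonal, diagonal_mul_diagonal]
    simp only [mul_comm]

omit [ProperSpace k] in
theorem Nice.exists_cell (hn : Nice G 𝔤) (y : Fin n → ℤ) {g : GL (Fin n) k} (hg : g ∈ G) :
    ∃ b ∈ G, fy y (b : Mt n k) ≠ 0 ∧ fy y ((g * b : GL (Fin n) k) : Mt n k) ≠ 0 := by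
  by_contra c
  push Not at c
  have := eq_of_cell hn.prime ((pf_fy y).lr (g : Mt n k) 1) (PF.const 0)
    (fun x hx h => by rw [mul_one]; exact c x hx h) (inv_mem hg)
  rw [mul_one, Units.mul_inv, fy_one] at this
  exact one_ne_zero this

/-- the big cell generates -/
theorem Nice.le_of_cell (hn : Nice G 𝔤) (hy : y ∈ Y G) {D : Subgroup (GL (Fin n) k)}
    (h1 : G ⊓ Ugl (-y) ≤ D) (h2 : G ⊓ Lgl y ≤ D) (h3 : G ⊓ Ugl y ≤ D) : G ≤ D := fun g hg => by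
  have key : ∀ x ∈ G, fy y (x : Mt n k) ≠ 0 → x ∈ D := fun x a b => lmu y x ▸
    mul_mem (mul_mem (h1 ⟨(hn.cell y hy x a b).1, loG_mem _ _⟩) (h2 ⟨hn.cell.md hy a b, mdG_mem b⟩))
      (h3 ⟨(hn.cell y hy x a b).2, upG_mem _ _⟩)
  obtain ⟨b, a, c, d⟩ := hn.exists_cell y hg
  simpa using mul_mem (key _ (mul_mem hg a) d) (inv_mem (key b a c))

/-- the root system is irreducible -/
theorem Simp.irr (hs : Simp G) (hn : Nice G 𝔤) (y z : Y G) (e : ∀ a ∈ Rt G 𝔤, a y = 0 ∨ a z = 0) :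
    y = 0 ∨ z = 0 := by
  let N := (G ⊓ Ugl z.1) ⊔ (G ⊓ Ugl (-z.1))
  have h1 : N ≤ Lgl y.1 := sup_le (fun u => hn.chart.U_le_L fun a ha => (e a ha).symm)
    fun u => hn.chart.U_le_L (y := -z) fun a ha => by simpa using (e a ha).symm
  have h2 : G ≤ Subgroup.normalizer (N : Set (GL (Fin n) k)) := hn.le_of_cell z.2 (le_sup_right.trans Subgroup.le_normalizer)
    (fun g hg => ?_) (le_sup_left.trans Subgroup.le_normalizer)
  · rcases hs.norm N (sup_le inf_le_left inf_le_left)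
      (.of_forall fun g hg x hx => (Subgroup.mem_normalizer_iff.1 (h2 hg) x).1 hx) with c | c
    · have k : ∀ y ∈ Y G, G ⊓ Ugl (-y) ≤ N → G ⊓ Ugl (-y) ≤ Lgl z.1 := fun y hy a u hu => by
        obtain ⟨ϖ, h1, -⟩ := exists_unif k
        obtain ⟨r, hr⟩ := bdd_of_isCompact c.isCompact
        rw [eq_one_of_bdd h1 hu.2 fun j => hr _ (a (conj_U hy hu _))]
        exact one_mem _
      exact Or.inr (Subtype.ext (hs.not_le_L hn z.2 (hn.le_of_cell z.2 (k _ z.2 le_sup_right) inf_le_right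
        (by simpa using k _ (neg_mem z.2) (by rw [neg_neg]; exact le_sup_left)))))
    · exact Or.inl (Subtype.ext (hs.not_le_L hn y.2 (le_L_of_van c h1)))
  have k : ∀ g ∈ G ⊓ Lgl z.1, N.map (MulAut.conj g).toMonoidHom ≤ N := fun g hg => by
    rw [Subgroup.map_sup]
    refine sup_le_sup ?_ ?_ <;> rintro _ ⟨x, hx, rfl⟩
    · exact ⟨G.mul_mem (G.mul_mem hg.1 hx.1) (G.inv_mem hg.1), conj_mem_Ugl (Lgl_le_Pgl _ hg.2) hx.2⟩
    · exact ⟨G.mul_mem (G.mul_mem hg.1 hx.1) (G.inv_mem hg.1), conj_mem_Ugl (Lgl_le_Pgl_neg _ hg.2) hx.2⟩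
  exact fun x => ⟨fun a => k g hg ⟨x, a, rfl⟩, fun a => by
    simpa [mul_assoc] using k _ (inv_mem hg) ⟨_, a, rfl⟩⟩

end Vale.Agent.P092AG
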