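import Vale.Agent.P092AL.Poly
import Vale.Agent.P092AL.CovD
import Mathlib.Topology.Algebra.Polynomial

/-!
P092, group side (helper72): conjugation of cocharacters, comparison of cocharacters in a Levi subgroup.
-/

set_option linter.all false

open Matrix Finset Filter Topology
open scoped Matrix.Norms.Elementwise

namespace Vale.Agent.P092AG

open Vale.Agent.P092AL (Fl Pp Un Lv)
open Vale.Agent.P092CQ

section alg

variable {n : ℕ} {R : Type} [Field R] {y y' s : Fin n → ℤ} {u g : GL (Fin n) R}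

theorem un_li_of {x : Mt n R} (h : Un y' x) : Un y' (P092AL.li y x) := fun a b e => by
  have h1 : Pp y' (P092AL.pj R y (y a)) := (P092AL.lv_diag _).pp
  have h2 : Un y' (P092AL.tr y (y a) x)⁻¹ := h.tr.inv
  have h3 := (Fl.mul h ((h1.mul h2.pp).mul h1)).add (Fl.mono (Fl.mul (Fl.mul h1 h2) h1) (by omega))
  refine h3 a b fun c => e ?_
  have h4 : (x - 1) * (P092AL.pj R y (y a) * (P092AL.tr y (y a) x)⁻¹ * P092AL.pj R y (y a)) +
      P092AL.pj R y (y a) * ((P092AL.tr y (y a) x)⁻¹ - 1) * P092AL.pj R y (y a) =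
      x * P092AL.pj R y (y a) * (P092AL.tr y (y a) x)⁻¹ * P092AL.pj R y (y a) -
        P092AL.pj R y (y a) * 1 := by
    rw [mul_one, mul_sub, sub_mul, sub_mul, mul_one, P092AL.pj_sq, one_mul, sub_add_sub_cancel]
    simp only [mul_assoc]
  rw [h4, Matrix.sub_apply, P092AL.pj_mul_apply, if_neg (lt_irrefl _), sub_zero] at c
  rw [Matrix.sub_apply, P092AL.li, of_apply, Matrix.sub_apply, c, sub_zero, sub_self]

theorem loG_of_U (h : u ∈ Ugl y') : loG y u ∈ Ugl y' := isU_un.2 (un_li_of (isU_un.1 h)).inv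

theorem upG_of_U (h : u ∈ Ugl y') : upG y u ∈ Ugl y' := isU_un.2 (Un.inv (by
  simpa [P092AL.ui] using (un_li_of (y := y) (isU_un.1 h).transpose).transpose))

theorem mdG_of_U (h : u ∈ Ugl y') : mdG y u ∈ Ugl y' :=
  mul_mem (mul_mem (inv_mem (loG_of_U h)) h) (inv_mem (upG_of_U h))

theorem perm_of_gl (g : GL (Fin n) R) : ∃ σ : Equiv.Perm (Fin n), ∀ j, (g : Mt n R) (σ j) j ≠ 0 := by
  have := (gl_unit g).ne_zero
  rw [det_apply'] at this
  obtain ⟨σ, -, h⟩ := exists_ne_zero_of_sum_ne_zero this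
  exact ⟨σ, fun j => prod_ne_zero_iff.1 (right_ne_zero_of_mul h) j (mem_univ j)⟩

/-- `y` and `y'` define the same subgroups of the Levi subgroup of `s` -/
def Sg (s y y' : Fin n → ℤ) : Prop := ∀ i j, s i = s j → (y i < y j ↔ y' i < y' j)

theorem Sg.symm (h : Sg s y y') : Sg s y' y := fun i j e => (h i j e).symm

theorem Sg.neg (h : Sg s y y') : Sg s (-y) (-y') := fun i j e => by
  simpa using h j i e.symm

theorem Sg.P (h : Sg s y y') (hg : g ∈ Lgl s) (hp : g ∈ Pgl y) : g ∈ Pgl y' := fun i j e =>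
  by_contra fun c => c (hp i j ((h i j (by_contra fun d => c (hg i j d))).2 e))

theorem Sg.L (h : Sg s y y') (hg : g ∈ Lgl s) (hp : g ∈ Lgl y) : g ∈ Lgl y' :=
  mem_Lgl_of (h.P hg (Lgl_le_Pgl y hp)) (h.neg.P hg (Lgl_le_Pgl_neg y hp))

theorem Sg.U (h : Sg s y y') (hg : g ∈ Lgl s) (hp : g ∈ Ugl y) : g ∈ Ugl y' := fun i j e => by
  by_cases c : s i = s j
  · exact hp i j (not_lt.1 fun d => not_lt.2 e ((h j i c.symm).1 d))
  · rw [hg i j c, one_apply_ne fun d => c (by rw [d])]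

theorem Y_levi {G : Subgroup (GL (Fin n) R)} : Y (G ⊓ Lgl s) = Y G :=
  AddSubgroup.ext fun _ => ⟨fun h t => (h t).1, fun h t => ⟨h t, tor_mem_Lgl _ _ t⟩⟩

theorem Nm_levi {G : Subgroup (GL (Fin n) R)} (h : g ∈ Nm (G ⊓ Lgl s)) : g ∈ Nm G :=
  ⟨h.1.1, by simpa only [Y_levi] using h.2⟩

theorem Hs_levi {G : Subgroup (GL (Fin n) R)} (h : g ∈ Hs G y) (h' : g ∈ Lgl s) : g ∈ Hs (G ⊓ Lgl s) y :=
  ⟨⟨h.1, h'⟩, fun x hx => h.2 x hx.1⟩

theorem tor_Hs {G : Subgroup (GL (Fin n) R)} (h : y' ∈ Y G) (t : Rˣ) : tor y' t ∈ Hs G y :=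
  P_le_Hs (h t) (Lgl_le_Pgl y (tor_mem_Lgl _ _ t))

theorem md_entry (h : g ∈ Pgl s) (i j : Fin n) :
    (mdG s g : Mt n R) i j = if s i = s j then (g : Mt n R) i j else 0 := by
  have h1 := mdG_mem (fy_P_ne h)
  split_ifs with c
  · conv_rhs => rw [← lmu s g, loG_P h, one_mul, Units.val_mul]
    exact (IsP.mul_isU (Lgl_le_Pgl s h1) (upG_mem s g) c.le).symm
  · exact h1 i j c

end alg

variable {n : ℕ} {k : Type} [NontriviallyNormedField k] {G : Subgroup (GL (Fin n) k)}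
  {X : Mt n k} {y y' s : Fin n → ℤ} {m u : GL (Fin n) k}

/-- `m` conjugates the cocharacter `y'` to `y` -/
def Tw (m : GL (Fin n) k) (y y' : Fin n → ℤ) : Prop := ∀ t, tor y t * m = m * tor y' t

theorem Tw.wt (h : Tw m y y') {i j : Fin n} (e : (m : Mt n k) i j ≠ 0) : y i = y' j := wt_eq_of_comm h e

theorem Tw.inv (h : Tw m y y') : Tw m⁻¹ y' y := fun t => by
  rw [eq_inv_mul_iff_mul_eq, ← mul_assoc, ← h, mul_inv_cancel_right]

theorem Tw.neg (h : Tw m y y') : Tw m (-y) (-y') := fun t => by rw [tor_neg, tor_neg, ← tor_inv, ← tor_inv, h]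

theorem Tw.fl (h : Tw m y y') {j : ℤ} (hX : Fl y' j X) : Fl y j (Ad m X) := fun a b e => by
  rw [Ad_apply, mul_apply] at e
  obtain ⟨d, -, e⟩ := exists_ne_zero_of_sum_ne_zero e
  have e' := left_ne_zero_of_mul e
  rw [mul_apply] at e'
  obtain ⟨c, -, e'⟩ := exists_ne_zero_of_sum_ne_zero e'
  rw [h.wt (left_ne_zero_of_mul e'), ← h.inv.wt (right_ne_zero_of_mul e)]
  exact hX c d (right_ne_zero_of_mul e')

theorem Tw.U (h : Tw m y y') (hu : u ∈ Ugl y') : m * u * m⁻¹ ∈ Ugl y := isU_un.2 (by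
  have := h.fl (isU_un.1 hu)
  rwa [map_sub, Ad_one] at this)

theorem Tw.L (h : Tw m y y') (hu : u ∈ Lgl y') : m * u * m⁻¹ ∈ Lgl y :=
  isL_lv.2 (P092AL.lv_of (h.fl (isL_lv.1 hu).pp) (h.neg.fl (isL_lv.1 hu).pm))

theorem Tw.mn (h : Tw m y y') (c : ℤ) (x : Mt n k) : mn y c (Ad m x) = mn y' c x := by
  have h1 : P092AL.pj k y c * (m : Mt n k) = m * P092AL.pj k y' c := Matrix.ext fun i j => by
    rw [P092AL.pj_mul_apply, P092AL.mul_pj_apply]
    by_cases e : (m : Mt n k) i j = 0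
    · simp [e]
    · rw [h.wt e]
  have h2 : P092AL.pj k y c = Ad m (P092AL.pj k y' c) := by
    rw [Ad_apply, ← h1, Units.mul_inv_cancel_right]
  have h3 : P092AL.tr y c (Ad m x) = Ad m (P092AL.tr y' c x) := by
    rw [P092AL.tr, P092AL.tr, h2, map_add, map_sub, Ad_one]
    simp only [Ad_apply, mul_assoc, Units.inv_mul_cancel_left]
  rw [P092AG.mn, P092AL.mn, h3, Ad_apply, det_units_conj]
  rfl

theorem Tw.fy (h : Tw m y y') (x : GL (Fin n) k) :
    fy y ((m * x : GL (Fin n) k) : Mt n k) = fy y' ((x * m : GL (Fin n) k) : Mt n k) := by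
  obtain ⟨σ, hσ⟩ := perm_of_gl m
  rw [show m * x = m * (x * m) * m⁻¹ by group, ← Ad_coe, P092AG.fy, P092AG.fy, P092AL.ff, P092AL.ff,
    ← Equiv.prod_comp σ]
  exact prod_congr rfl fun a _ => by rw [h.wt (hσ a)]; exact congrArg₂ _ (h.mn _ _) (h.mn _ _)

theorem tw_left (hm : m ∈ Nm G) (hy : y ∈ Y G) : ∃ y' ∈ Y G, Tw m y y' :=
  (hm.2.2 y hy).imp fun _ a => ⟨a.1, fun t => by rw [← a.2]; group⟩

theorem tw_right (hm : m ∈ Nm G) (hy : y ∈ Y G) : ∃ y' ∈ Y G, Tw m y' y :=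
  (hm.2.1 y hy).imp fun _ a => ⟨a.1, fun t => by rw [← a.2]; group⟩

theorem Reg.neg (h : Reg G y) : Reg G (-y) := ⟨neg_mem h.1, fun i j e => h.2 i j (neg_injective e)⟩

theorem Reg.tw (h : Reg G y) (hm : m ∈ Nm G) (hy : y' ∈ Y G) (e : Tw m y y') : Reg G y' := by
  obtain ⟨σ, hσ⟩ := perm_of_gl m
  refine ⟨hy, fun i j c z hz => ?_⟩
  obtain ⟨z', h1, h2⟩ := tw_right hm hz
  rw [← h2.wt (hσ i), ← h2.wt (hσ j)]
  exact h.2 _ _ (by rw [e.wt (hσ i), e.wt (hσ j), c]) z' h1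

theorem PT.eq_of_bdd {F : k → k} (h : PT F) {t : kˣ} (ht : ‖(t : k)‖ < 1) {C : ℝ}
    (hb : ∀ᶠ j : ℕ in atTop, ‖F ((t ^ j)⁻¹ : kˣ)‖ ≤ C) (a b : k) : F a = F b := by
  obtain ⟨q, hq⟩ := h
  have : q.degree ≤ 0 := not_lt.1 fun c => by
    have h1 : Tendsto (fun j : ℕ => ‖(((t ^ j)⁻¹ : kˣ) : k)‖) atTop atTop := by
      simpa using tendsto_pow_atTop_atTop_of_one_lt ((one_lt_inv₀ (norm_pos_iff.2 t.ne_zero)).2 ht)
    obtain ⟨j, a, b⟩ := (hb.and ((q.tendsto_norm_atTop c h1).eventually_gt_atTop C)).exists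
    exact a.not_gt (hq _ ▸ b)
  rw [hq, hq, Polynomial.eq_C_of_degree_le_zero this, Polynomial.eval_C, Polynomial.eval_C]

theorem pt_sc (y y' : Fin n → ℤ) (w x : Mt n k) : PT fun t => fy y (w * sc y' t x) :=
  (pf_fy y).pt (PT.mulE (fun _ _ => PT.const _) (sc_pt y' x))

theorem Ad_norm_le {t : kˣ} (ht : ‖(t : k)‖ ≤ 1) (hX : Fl y 1 X) : ‖Ad (tor y t) X‖ ≤ ‖X‖ * ‖(t : k)‖ :=
  (norm_le_iff (by positivity)).2 fun i j => by
    rw [Ad_apply, tor_conj, norm_mul, mul_comm]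
    by_cases e : X i j = 0
    · rw [e, norm_zero, zero_mul]; positivity
    · have := hX i j e
      refine mul_le_mul (norm_entry_le_entrywise_sup_norm X) ?_ (norm_nonneg _) (norm_nonneg _)
      rw [norm_zpow]
      exact (zpow_le_zpow_right_of_le_one₀ (norm_pos_iff.2 t.ne_zero) ht
        (show 1 ≤ y i - y j by omega)).trans_eq (zpow_one _)

/-- uniform contraction -/
theorem tend_unif {t : kˣ} (ht : ‖(t : k)‖ < 1) {d : ℕ → GL (Fin n) k} (h : ∀ j, d j ∈ Ugl y) {r : ℝ}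
    (hr : ∀ j, ‖(d j : Mt n k)‖ ≤ r) :
    Tendsto (fun j => ((tor y (t ^ j) * d j * (tor y (t ^ j))⁻¹ : GL (Fin n) k) : Mt n k)) atTop (𝓝 1) := by
  have h1 := (tendsto_pow_atTop_nhds_zero_of_lt_one (norm_nonneg _) ht).const_mul (r + ‖(1 : Mt n k)‖)
  rw [mul_zero] at h1
  refine tendsto_sub_nhds_zero_iff.1 (squeeze_zero_norm (fun j => ?_) h1)
  rw [← Ad_coe, ← Ad_one (tor y (t ^ j)), ← map_sub]
  refine (Ad_norm_le (by simpa using pow_le_one₀ (norm_nonneg _) ht.le) (isU_un.1 (h j))).trans ?_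
  rw [Units.val_pow_eq_pow_val, norm_pow, Ad_one]
  exact mul_le_mul_of_nonneg_right ((norm_sub_le _ _).trans (by linarith [hr j])) (by positivity)

theorem fy_tor_ne {t : kˣ} (ht : ‖(t : k)‖ < 1) (h : ((tor y t : GL (Fin n) k) : Mt n k).det = 1)
    (h0 : y ≠ 0) : fy y ((tor y t : GL (Fin n) k) : Mt n k) ≠ 1 := fun e => by
  have k1 : ∀ d : Fin n → ℤ, ∏ a, (t : k) ^ d a = (t : k) ^ ∑ a, d a := fun d => by
    induction (univ : Finset (Fin n)) using Finset.induction_on with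
    | empty => simp
    | insert a s ha ih => rw [prod_insert ha, sum_insert ha, ih, zpow_add₀ t.ne_zero]
  let S : ℤ → ℤ := fun c => ∑ a, if c < y a then y a else 0
  have k2 : ∀ c, P092AL.mn y c (diagonal fun i => (t : k) ^ y i) = (t : k) ^ S c := fun c => by
    rw [P092AL.mn_diag, ← k1]
    exact prod_congr rfl fun a _ => by split_ifs <;> simp
  rw [tor_val, det_diagonal, k1, ← zpow_zero (t : k)] at h
  have k3 := zpow_inj ht h
  simp only [tor_val, fy, P092AL.ff, k2, ← zpow_add₀ t.ne_zero] at e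
  rw [k1, ← zpow_zero (t : k)] at e
  have k4 : ∀ c, 0 ≤ S c := fun c => by
    rcases le_or_gt 0 c with a | a
    · exact sum_nonneg fun i _ => by split_ifs <;> omega
    · exact k3.ge.trans (sum_le_sum fun i _ => by split_ifs <;> omega)
  obtain ⟨a, ha⟩ : ∃ a, 0 < y a := by
    by_contra c
    push Not at c
    exact h0 (funext fun a => (sum_eq_zero_iff_of_nonpos fun i _ => c i).1 k3 a (mem_univ a))
  have k5 := (sum_eq_zero_iff_of_nonneg fun i _ => add_nonneg (k4 _) (k4 _)).1 (zpow_inj ht e) a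
    (mem_univ a)
  have k6 : y a ≤ S (y a - 1) := le_of_eq_of_le (if_pos (by omega)).symm
    (single_le_sum (f := fun i => if y a - 1 < y i then y i else 0)
      (fun i _ => by split_ifs <;> omega) (mem_univ a))
  have := k4 (y a)
  omega

end Vale.Agent.P092AG
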